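import Mathlib.Algebra.Polynomial.Taylor
import Mathlib.Algebra.Polynomial.Degree.Operations
import Mathlib.Data.Complex.Basic
import Mathlib.Tactic.Ring
import Mathlib.Tactic.Linarith
import Mathlib.Tactic.LinearCombination

/-!
# P269AV / Split : sums over the splittings of a word, and the lowering operator
-/

noncomputable section

namespace Vale.Agent.P269AV

open Polynomial

variable {ι : Type}

/-- words in the letters `(m, a)` -/
abbrev Wd (ι : Type) : Type := List (ℕ × ι)

/-- the sum of `K u v` over all splittings of a word into two subwords -/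
def m2 : (Wd ι → Wd ι → ℂ) → Wd ι → ℂ
  | K, [] => K [] []
  | K, x :: w => m2 (fun u v => K (x :: u) v) w + m2 (fun u v => K u (x :: v)) w

/-- the sum over all ways to lower one letter -/
def V : (Wd ι → ℂ) → Wd ι → ℂ
  | _, [] => 0
  | f, x :: w => (if x.1 = 0 then 0 else f ((x.1 - 1, x.2) :: w)) + V (fun u => f (x :: u)) w

/-- the sum of the levels -/
def sm (w : Wd ι) : ℕ := (w.map Prod.fst).sum

@[simp] theorem sm_nil : sm ([] : Wd ι) = 0 := rfl
@[simp] theorem sm_cons (x : ℕ × ι) (w : Wd ι) : sm (x :: w) = x.1 + sm w := by simp [sm]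
@[simp] theorem sm_append (u v : Wd ι) : sm (u ++ v) = sm u + sm v := by simp [sm]
theorem sm_perm {u v : Wd ι} (h : u.Perm v) : sm u = sm v := (h.map _).sum_eq

variable {K K' : Wd ι → Wd ι → ℂ} {f f' g : Wd ι → ℂ} {w : Wd ι}

theorem m2_congr (h : ∀ u v, (u ++ v).Perm w → K u v = K' u v) : m2 K w = m2 K' w := by
  induction w generalizing K K' with
  | nil => exact h [] [] (List.Perm.refl _)
  | cons x w ih =>
    rw [m2, m2, ih (K' := fun u v => K' (x :: u) v) fun u v h' => h _ _ (h'.cons x),
      ih (K := fun u v => K u (x :: v)) (K' := fun u v => K' u (x :: v)) fun u v h' =>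
        h _ _ (List.perm_middle.trans (h'.cons x))]

theorem m2_add (K K' : Wd ι → Wd ι → ℂ) (w : Wd ι) :
    m2 (fun u v => K u v + K' u v) w = m2 K w + m2 K' w := by
  induction w generalizing K K' with
  | nil => rfl
  | cons x w ih => rw [m2, m2, m2, ih, ih]; ring

theorem m2_smul (c : ℂ) (K : Wd ι → Wd ι → ℂ) (w : Wd ι) :
    m2 (fun u v => c * K u v) w = c * m2 K w := by
  induction w generalizing K with
  | nil => rfl
  | cons x w ih => rw [m2, m2, ih, ih]; ring

theorem m2_zero (w : Wd ι) : m2 (fun _ _ => 0) w = 0 := by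
  simpa using m2_smul 0 (fun _ _ => 0) w

theorem m2_eq_zero (h : ∀ u v, (u ++ v).Perm w → K u v = 0) : m2 K w = 0 :=
  (m2_congr h).trans (m2_zero w)

theorem m2_sub (K K' : Wd ι → Wd ι → ℂ) (w : Wd ι) :
    m2 (fun u v => K u v - K' u v) w = m2 K w - m2 K' w := by
  have := m2_add K (fun u v => -1 * K' u v) w
  rw [m2_smul] at this
  simpa [sub_eq_add_neg] using this

theorem m2_sum {σ : Type} (s : Finset σ) (K : σ → Wd ι → Wd ι → ℂ) (w : Wd ι) :
    m2 (fun u v => ∑ i ∈ s, K i u v) w = ∑ i ∈ s, m2 (K i) w := by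
  classical
  induction s using Finset.induction_on with
  | empty => simpa using m2_zero w
  | insert a s ha ih =>
    simp only [Finset.sum_insert ha]
    rw [m2_add, ih]

theorem m2_swap (K : Wd ι → Wd ι → ℂ) (w : Wd ι) : m2 (fun u v => K v u) w = m2 K w := by
  induction w generalizing K with
  | nil => rfl
  | cons x w ih =>
    rw [m2, m2, ih (fun u v => K u (x :: v)), ih (fun u v => K (x :: u) v), add_comm]

theorem m2_nil_left (K : Wd ι → Wd ι → ℂ) (h : ∀ x u v, K (x :: u) v = 0) (w : Wd ι) :
    m2 K w = K [] w := by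
  induction w generalizing K with
  | nil => rfl
  | cons x w ih =>
    rw [m2, m2_eq_zero fun u v _ => h x u v, zero_add,
      ih (fun u v => K u (x :: v)) fun y u v => h y u _]

theorem m2_perm (h1 : ∀ u u' v, u.Perm u' → K u v = K u' v)
    (h2 : ∀ u v v', v.Perm v' → K u v = K u v') {w w' : Wd ι} (h : w.Perm w') :
    m2 K w = m2 K w' := by
  induction h generalizing K with
  | nil => rfl
  | cons x _ ih =>
    rw [m2, m2, ih (K := fun u v => K (x :: u) v) (fun u u' v h => h1 _ _ _ (h.cons x))
      fun u v v' h => h2 _ _ _ h, ih (K := fun u v => K u (x :: v))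
      (fun u u' v h => h1 _ _ _ h) fun u v v' h => h2 _ _ _ (h.cons x)]
  | swap x y l =>
    simp only [m2]
    rw [m2_congr (K' := fun u v => K (x :: y :: u) v) fun u v _ => h1 _ _ _ (List.Perm.swap _ _ _),
      m2_congr (K := fun u v => K u (y :: x :: v)) (K' := fun u v => K u (x :: y :: v))
        fun u v _ => h2 _ _ _ (List.Perm.swap _ _ _)]
    ring
  | trans _ _ ih1 ih2 => exact (ih1 h1 h2).trans (ih2 h1 h2)

/-- `u` arises from `w` by lowering -/
def Low (u w : Wd ι) : Prop := u.map Prod.snd = w.map Prod.snd ∧ sm u + 1 = sm w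

theorem Low.length {u : Wd ι} (h : Low u w) : u.length = w.length := by
  simpa using congrArg List.length h.1

theorem V_congr (h : ∀ u, Low u w → f u = g u) : V f w = V g w := by
  induction w generalizing f g with
  | nil => rfl
  | cons x w ih =>
    rw [V, V, ih (g := fun u => g (x :: u)) fun u hu =>
      h _ ⟨by simp [hu.1], by simp [← hu.2, add_assoc]⟩]
    split_ifs with h0
    · rfl
    · rw [h _ ⟨by simp, by simp; omega⟩]

theorem V_add (f g : Wd ι → ℂ) (w : Wd ι) : V (fun u => f u + g u) w = V f w + V g w := by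
  induction w generalizing f g with
  | nil => simp [V]
  | cons x w ih => rw [V, V, V, ih]; split_ifs <;> ring

theorem V_smul (c : ℂ) (f : Wd ι → ℂ) (w : Wd ι) : V (fun u => c * f u) w = c * V f w := by
  induction w generalizing f with
  | nil => simp [V]
  | cons x w ih => rw [V, V, ih]; split_ifs <;> ring

theorem V_zero (w : Wd ι) : V (fun _ => 0) w = 0 := by simpa using V_smul 0 (fun _ => 0) w

theorem V_eq_zero (h : ∀ u, Low u w → f u = 0) : V f w = 0 := (V_congr h).trans (V_zero w)

theorem V_sub (f g : Wd ι → ℂ) (w : Wd ι) : V (fun u => f u - g u) w = V f w - V g w := by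
  have := V_add f (fun u => -1 * g u) w
  rw [V_smul] at this
  simpa [sub_eq_add_neg] using this

theorem V_sum {σ : Type} (s : Finset σ) (f : σ → Wd ι → ℂ) (w : Wd ι) :
    V (fun u => ∑ i ∈ s, f i u) w = ∑ i ∈ s, V (f i) w := by
  classical
  induction s using Finset.induction_on with
  | empty => simpa using V_zero w
  | insert a s ha ih =>
    simp only [Finset.sum_insert ha]
    rw [V_add, ih]

theorem V_perm (h1 : ∀ u u', u.Perm u' → f u = f u') {w w' : Wd ι} (h : w.Perm w') :
    V f w = V f w' := by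
  induction h generalizing f with
  | nil => rfl
  | cons x h ih => rw [V, V, ih fun u u' h => h1 _ _ (h.cons x), h1 _ _ (h.cons _)]
  | swap x y l =>
    simp only [V]
    rw [V_congr (g := fun u => f (x :: y :: u)) fun u _ => h1 _ _ (List.Perm.swap _ _ _),
      h1 (_ :: x :: l) _ (List.Perm.swap _ _ _), h1 (y :: _ :: l) _ (List.Perm.swap _ _ _)]
    ring
  | trans _ _ ih1 ih2 => exact (ih1 h1).trans (ih2 h1)

theorem V_m2 (K : Wd ι → Wd ι → ℂ) (w : Wd ι) : V (m2 K) w =
    m2 (fun u v => V (fun u => K u v) u) w + m2 (fun u v => V (K u) v) w := by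
  induction w generalizing K with
  | nil => simp [V, m2]
  | cons x w ih =>
    simp only [V, m2]
    rw [V_add, ih, ih, m2_add, m2_add]
    split_ifs with h0
    · simp only [m2_zero]; ring
    · ring

/-- the sign attached to a word -/
def sn (u : Wd ι) : ℂ := (-1) ^ (u.length + sm u)

/-- the weight attached to a word -/
def xi (x : ι → ℂ) (u : Wd ι) : ℂ := ((u.map Prod.snd).map x).sum + sm u - u.length

theorem sn_perm {u v : Wd ι} (h : u.Perm v) : sn u = sn v := by
  rw [sn, sn, sm_perm h, h.length_eq]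

theorem xi_perm (x : ι → ℂ) {u v : Wd ι} (h : u.Perm v) : xi x u = xi x v := by
  rw [xi, xi, sm_perm h, h.length_eq, ((h.map _).map _).sum_eq]

theorem Low.sn {u : Wd ι} (h : Low u w) : sn u = - sn w := by
  rw [P269AV.sn, P269AV.sn, ← h.2, h.length]; ring

theorem Low.xi (x : ι → ℂ) {u : Wd ι} (h : Low u w) : xi x u = xi x w - 1 := by
  rw [P269AV.xi, P269AV.xi, ← h.2, h.length, h.1]; push_cast; ring

theorem sn_zero (a : ι) (u : Wd ι) : sn ((0, a) :: u) = - sn u := by
  simp only [sn, List.length_cons, sm_cons]; ring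

theorem xi_zero (x : ι → ℂ) (a : ι) (u : Wd ι) : xi x ((0, a) :: u) = xi x u + x a - 1 := by
  simp only [xi, List.length_cons, sm_cons, List.map_cons, List.sum_cons]; push_cast; ring

/-- the twist of `f` by the sign and a function of the weight -/
def tw (x : ι → ℂ) (P : ℂ → ℂ) (f : Wd ι → ℂ) (u : Wd ι) : ℂ := sn u * P (xi x u) * f u

theorem V_tw (x : ι → ℂ) (P : ℂ → ℂ) (f : Wd ι → ℂ) (u : Wd ι) :
    V (tw x P f) u = - sn u * P (xi x u - 1) * V f u := by
  rw [← V_smul]
  exact V_congr fun u' h => by rw [tw, h.sn, h.xi]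

theorem tw_zero (x : ι → ℂ) (P : ℂ → ℂ) {a : ι} (hf : ∀ u, f ((0, a) :: u) = f u + V f u)
    (u : Wd ι) : tw x P f ((0, a) :: u) =
      V (tw x (fun s => P (s + x a)) f) u - tw x (fun s => P (s + (x a - 1))) f u := by
  rw [V_tw, tw, tw, hf, sn_zero, xi_zero, show xi x u - 1 + x a = xi x u + x a - 1 by ring,
    show xi x u + (x a - 1) = xi x u + x a - 1 by ring]
  ring

/-- The string recursion of the bilinear expression. -/
theorem m2_string (x : ι → ℂ) (P : ℂ → ℂ) {a : ι} (ha : x a = 0)
    (hf : ∀ u, f ((0, a) :: u) = f u + V f u) (hf' : ∀ u, f' ((0, a) :: u) = f' u + V f' u)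
    (w : Wd ι) : m2 (fun u v => tw x P f u * f' v) ((0, a) :: w) =
      V (m2 fun u v => tw x P f u * f' v) w +
        m2 (fun u v => tw x (fun s => P s - P (s - 1)) f u * f' v) w := by
  rw [m2, V_m2, ← m2_add, ← m2_add, ← m2_add]
  refine m2_congr fun u v _ => ?_
  rw [tw_zero x P hf, hf', V_smul, ha]
  simp only [mul_comm _ (f' v), V_smul, add_zero, zero_sub, ← sub_eq_add_neg]
  simp only [tw]
  ring

theorem iter_zero (a : ι) (l : ℕ) (f : Wd ι → ℂ) (u : Wd ι) :
    V^[l] f ((0, a) :: u) = V^[l] (fun u => f ((0, a) :: u)) u := by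
  induction l generalizing u with
  | zero => rfl
  | succ l ih =>
    rw [Function.iterate_succ_apply', Function.iterate_succ_apply', V, if_pos rfl, zero_add]
    exact V_congr fun u _ => ih u

theorem iter_sub (l : ℕ) (f g : Wd ι → ℂ) (u : Wd ι) :
    V^[l] (fun u => f u - g u) u = V^[l] f u - V^[l] g u := by
  induction l generalizing u with
  | zero => rfl
  | succ l ih =>
    simp only [Function.iterate_succ_apply']
    rw [← V_sub]
    exact V_congr fun u _ => ih u

theorem iter_perm (h1 : ∀ u u', u.Perm u' → f u = f u') (l : ℕ) :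
    ∀ u u', u.Perm u' → V^[l] f u = V^[l] f u' := by
  induction l with
  | zero => exact h1
  | succ l ih =>
    intro u u' h
    simp only [Function.iterate_succ_apply']
    exact V_perm ih h

theorem exists_zero (h : sm w < w.length) : ∃ a w', w.Perm ((0, a) :: w') := by
  induction w with
  | nil => simp at h
  | cons x w ih =>
    obtain ⟨m, a⟩ := x
    rcases m with _ | m
    · exact ⟨a, w, List.Perm.refl _⟩
    · obtain ⟨b, w', h'⟩ := ih (by simp at h; omega)
      exact ⟨b, (m + 1, a) :: w', (h'.cons _).trans (List.Perm.swap _ _ _)⟩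

theorem degree_shift {P : ℂ[X]} {n : ℕ} (h : P.degree < (n + 1 : ℕ)) (c : ℂ) :
    (taylor c P - P).degree < n := by
  rcases eq_or_ne P 0 with rfl | h0
  · simp
  have h1 : (taylor c P - P).degree < P.degree := by
    rw [← degree_taylor P c]
    refine degree_sub_lt_left (degree_taylor P c) ?_ (leadingCoeff_taylor c P)
    intro h2
    exact h0 (taylor_injective c (h2.trans (map_zero _).symm))
  rw [degree_eq_natDegree h0] at h h1
  exact h1.trans_le (by exact_mod_cast Nat.lt_succ_iff.1 (by exact_mod_cast h))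

/-- The basic vanishing: it uses only the string equation. -/
theorem m2_vanish (x : ι → ℂ) (hp : ∀ u u', u.Perm u' → f u = f u')
    (hp' : ∀ u u', u.Perm u' → f' u = f' u')
    (hf : ∀ a u, f ((0, a) :: u) = f u + V f u) (hf' : ∀ a u, f' ((0, a) :: u) = f' u + V f' u)
    (N : ℕ) : ∀ (w : Wd ι) (n l : ℕ) (P : ℂ[X]), w.length = N → n + sm w ≤ N → P.degree < n →
      m2 (fun u v => V^[l] (tw x (fun s => P.eval s) f) u * f' v) w = 0 := by
  induction N with
  | zero =>
    intro w n l P _ h2 h3
    obtain rfl : n = 0 := by omega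
    obtain rfl : P = 0 := by simpa using h3
    refine m2_eq_zero fun u v _ => ?_
    have := iter_sub l (fun _ : Wd ι => 0) (fun _ => 0) u
    have h4 : tw x (fun s => (0 : ℂ[X]).eval s) f = fun _ => 0 - 0 := by ext; simp [tw]
    rw [h4, this, sub_self, zero_mul]
  | succ N ih =>
    intro w n l P h1 h2 h3
    rcases n with _ | n
    · obtain rfl : P = 0 := by simpa using h3
      refine m2_eq_zero fun u v _ => ?_
      have := iter_sub l (fun _ : Wd ι => 0) (fun _ => 0) u
      have h4 : tw x (fun s => (0 : ℂ[X]).eval s) f = fun _ => 0 - 0 := by ext; simp [tw]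
      rw [h4, this, sub_self, zero_mul]
    obtain ⟨a, w', hw⟩ := exists_zero (w := w) (by omega)
    have h4 : w'.length = N := by simpa [h1] using hw.length_eq.symm
    have h5 : sm w' = sm w := by simpa using (sm_perm hw).symm
    rw [m2_perm (fun u u' v h => by
      rw [iter_perm (fun u u' h => by rw [tw, tw, sn_perm h, xi_perm x h, hp _ _ h]) l _ _ h])
      (fun u v v' h => by rw [hp' _ _ h]) hw]
    have e1 := ih w' n (l + 1) _ h4 (by omega) (degree_shift h3 (x a))
    have e2 := ih w' n l _ h4 (by omega) (degree_shift h3 (x a - 1))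
    have e3 : V (m2 fun u v => V^[l] (tw x (fun s => P.eval s) f) u * f' v) w' = 0 :=
      V_eq_zero fun u hu => ih u (n + 1) l P (hu.length.trans h4) (by have := hu.2; omega) h3
    have h6 : ∀ c : ℂ, tw x (fun s => (taylor c P - P).eval s) f = fun u =>
        tw x (fun s => P.eval (s + c)) f u - tw x (fun s => P.eval s) f u := fun c => by
      ext u; simp only [tw, eval_sub, taylor_eval]; ring
    rw [h6] at e1 e2
    rw [m2, ← m2_add, ← sub_zero (0 : ℂ), ← add_zero (0 - 0 : ℂ)]
    nth_rw 3 [← e3]
    nth_rw 2 [← e2]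
    nth_rw 1 [← e1]
    rw [V_m2, ← m2_add, ← m2_sub, ← m2_add]
    refine m2_congr fun u v _ => ?_
    rw [iter_zero, hf', V_smul, funext (tw_zero x (fun s => P.eval s) (hf a)), iter_sub, iter_sub,
      iter_sub, ← Function.iterate_succ_apply]
    simp only [mul_comm _ (f' v), V_smul, ← Function.iterate_succ_apply' V, Nat.succ_eq_add_one]
    ring

end Vale.Agent.P269AV
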