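import Vale.Agent.P269AV.Defs
import Vale.Agent.P269AV.Split

/-!
# P269AV / Br : the numbers `[x]^k_i`, and kernels supported on words of length one
-/

noncomputable section

namespace Vale.Agent.P269AV

open Polynomial

theorem br_zero (i : ℕ) (x : ℂ) : br 0 i x = if i = 0 then 1 else 0 := by
  simp [br, coeff_one]

theorem br_succ_zero (n : ℕ) (x : ℂ) : br (n + 1) 0 x = br n 0 x * (x + n) := by
  rw [br, br, Finset.prod_range_succ, mul_coeff_zero]
  simp

theorem br_succ_succ (n i : ℕ) (x : ℂ) :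
    br (n + 1) (i + 1) x = br n i x + br n (i + 1) x * (x + n) := by
  rw [br, br, br, Finset.prod_range_succ, mul_add, coeff_add, coeff_mul_X, coeff_mul_C]

theorem br_poly (n : ℕ) : ∀ i, ∃ Q : ℂ[X], Q.degree < ((n + 1 - i : ℕ) : WithBot ℕ) ∧
    ∀ x, Q.eval x = br n i x := by
  have key : ∀ (Q : ℂ[X]) (k : ℕ) (c : ℂ), Q.degree < k →
      (Q * (X + C c)).degree < ((k + 1 : ℕ) : WithBot ℕ) ∧ (k = 0 → Q * (X + C c) = 0) := fun Q k c h => by
    refine ⟨?_, fun h0 => ?_⟩
    · rcases eq_or_ne Q 0 with rfl | h0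
      · simp
      rw [degree_mul, degree_X_add_C, degree_eq_natDegree h0]
      rw [degree_eq_natDegree h0] at h
      exact_mod_cast Nat.succ_lt_succ (by exact_mod_cast h)
    · subst h0
      obtain rfl : Q = 0 := by simpa using h
      simp
  induction n with
  | zero =>
    rintro (_ | i)
    · exact ⟨1, by simp, fun x => by simp [br_zero]⟩
    · exact ⟨0, by simp, fun x => by simp [br_zero]⟩
  | succ n ih =>
    rintro (_ | i)
    · obtain ⟨Q, h1, h2⟩ := ih 0
      exact ⟨Q * (X + C (n : ℂ)), (key Q _ _ h1).1, fun x => by simp [br_succ_zero, h2]⟩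
    · obtain ⟨Q, h1, h2⟩ := ih i
      obtain ⟨Q', h3, h4⟩ := ih (i + 1)
      refine ⟨Q + Q' * (X + C (n : ℂ)), (degree_add_le _ _).trans_lt (max_lt ?_ ?_),
        fun x => by simp [br_succ_succ, h2, h4]⟩
      · rwa [Nat.add_sub_add_right]
      · rcases Nat.eq_zero_or_pos (n + 1 - (i + 1)) with h | h
        · rw [(key Q' _ _ h3).2 h]; simp
        · rw [show n + 1 + 1 - (i + 1) = n + 1 - (i + 1) + 1 by omega]
          exact (key Q' _ _ h3).1

theorem br_gt {n i : ℕ} (h : n < i) (x : ℂ) : br n i x = 0 := by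
  obtain ⟨Q, h1, h2⟩ := br_poly n i
  rw [show n + 1 - i = 0 by omega] at h1
  obtain rfl : Q = 0 := by simpa using h1
  rw [← h2, eval_zero]

theorem br_self (n : ℕ) (x : ℂ) : br n n x = 1 := by
  induction n with
  | zero => simp [br_zero]
  | succ n ih => rw [br_succ_succ, ih, br_gt n.lt_succ_self, zero_mul, add_zero]

theorem br_diff (n i : ℕ) (x : ℂ) :
    br (n + 1) i x - br (n + 1) i (x - 1) = (n + 1) * br n i x := by
  have h : (∏ l ∈ Finset.range (n + 1), (X + C (x + l))) -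
      (∏ l ∈ Finset.range (n + 1), (X + C (x - 1 + l))) =
      C ((n : ℂ) + 1) * ∏ l ∈ Finset.range n, (X + C (x + l)) := by
    rw [Finset.prod_range_succ, Finset.prod_range_succ']
    have : ∀ l : ℕ, x - 1 + ((l + 1 : ℕ) : ℂ) = x + l := fun l => by push_cast; ring
    simp only [this, map_add, map_sub, map_one, Nat.cast_zero, map_zero]
    ring
  rw [br, br, br, ← coeff_sub, h, coeff_C_mul]

theorem br_succ' (n i : ℕ) (x : ℂ) : br (n + 1) 0 x = br n 0 (x + 1) * x ∧
    br (n + 1) (i + 1) x = br n i (x + 1) + br n (i + 1) (x + 1) * x := by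
  have : ∀ l : ℕ, x + ((l + 1 : ℕ) : ℂ) = x + 1 + l := fun l => by push_cast; ring
  constructor
  · rw [br, br, Finset.prod_range_succ', mul_coeff_zero]
    simp only [this]
    simp
  · rw [br, br, br, Finset.prod_range_succ', mul_add, coeff_add, coeff_mul_X, coeff_mul_C]
    simp only [this, Nat.cast_zero, add_zero]

theorem br_symm (n : ℕ) : ∀ (i : ℕ) (x : ℂ), br n i (1 - n - x) = (-1) ^ (n + i) * br n i x := by
  induction n with
  | zero => rintro (_ | i) x <;> simp [br_zero]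
  | succ n ih =>
    have h : ∀ x : ℂ, 1 - ((n + 1 : ℕ) : ℂ) - x + 1 = 1 - n - x := fun x => by push_cast; ring
    rintro (_ | i) x
    · rw [(br_succ' n 0 _).1, h, ih, br_succ_zero]; push_cast; ring
    · rw [(br_succ' n i _).2, h, ih, ih, br_succ_succ]; push_cast; ring

variable {ι : Type}

/-- a kernel supported on words of length one -/
def s1 (G : ℕ × ι → Wd ι → ℂ) : Wd ι → Wd ι → ℂ
  | [x], v => G x v
  | _, _ => 0

theorem m2_s1 (G : ℕ × ι → Wd ι → ℂ) (x : ℕ × ι) (w : Wd ι) :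
    m2 (s1 G) (x :: w) = G x w + m2 (s1 fun y v => G y (x :: v)) w := by
  rw [m2, m2_nil_left _ fun y u v => rfl]
  congr 1
  refine m2_congr fun u v _ => ?_
  rcases u with _ | ⟨y, _ | _⟩ <;> rfl

theorem m2_s1_congr {G G' : ℕ × ι → Wd ι → ℂ} {w : Wd ι}
    (h : ∀ x v, (x :: v).Perm w → G x v = G' x v) : m2 (s1 G) w = m2 (s1 G') w := by
  refine m2_congr fun u v h' => ?_
  rcases u with _ | ⟨y, _ | _⟩
  · rfl
  · exact h _ _ h'
  · rfl

theorem m2_s1_V {f : Wd ι → ℂ} (hp : ∀ u u', u.Perm u' → f u = f u') (w : Wd ι) :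
    m2 (s1 fun x v => if x.1 = 0 then 0 else f ((x.1 - 1, x.2) :: v)) w = V f w := by
  induction w generalizing f with
  | nil => rfl
  | cons x w ih =>
    rw [m2_s1, V, ← ih fun u u' h => hp _ _ (h.cons x)]
    congr 1
    exact m2_s1_congr fun y v _ => by rw [hp _ _ (List.Perm.swap _ _ _)]

theorem m2_s1_sum (c : ℕ × ι → ℂ) (t : ℂ) (w : Wd ι) :
    m2 (s1 fun x _ => c x * t) w = (w.map c).sum * t := by
  induction w with
  | nil => simp [m2, s1]
  | cons x w ih => rw [m2_s1, ih, List.map_cons, List.sum_cons, add_mul]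

theorem m2_short (K : Wd ι → Wd ι → ℂ) (h : ∀ x y u v, K (x :: y :: u) v = 0) (w : Wd ι) :
    m2 K w = K [] w + m2 (s1 fun x v => K [x] v) w := by
  rw [← m2_nil_left (fun u v => if u = [] then K [] v else 0) (fun _ _ _ => by simp) w |>.trans
    (if_pos rfl), ← m2_add]
  refine m2_congr fun u v _ => ?_
  rcases u with _ | ⟨x, _ | ⟨y, u⟩⟩
  · simp [s1]
  · simp [s1]
  · simp [s1, h]

end Vale.Agent.P269AV
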