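import Vale.Agent.P269AV.Ext

/-!
# P269AV / Core : the constraints in degree zero, as identities of numbers
-/

noncomputable section

namespace Vale.Agent.P269AV

open Finset

variable {ι : Type} (p : ι → ℕ) (r : ℕ) {γ : ℕ → ℂ} (I : ℕ → ℕ → List ℕ → ℂ)

/-- the first order term -/
def O1 (n i g j : ℕ) (w : Wd ι) : ℂ :=
  m2 (s1 fun x v => br n i (p x.2 - r / 2 + x.1 + 1 / 2) * G1 (I g j) (x.1 + n - 1 - i) v) w -
    br n i ((3 - r) / 2) * G1 (I g j) (n - i) w

/-- the term of order zero -/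
def Q0 (w : Wd ι) : ℂ := m2 (s1 fun x v => if x.1 = 0 ∧ v.map Prod.fst = [0] then 1 / 2 else 0) w

/-- the product term -/
def P2 (n i h j h' j' : ℕ) (w : Wd ι) : ℂ := m2 (fun u v => ∑ m ∈ range n, (-1) ^ (m + 1) / 2 *
  br n i (j + pw p u - r / 2 - m - 1 / 2) * (G1 (I h j) m u * G1 (I h' j') (n - 2 - m - i) v)) w

variable {r I} (H : Hodge r γ I) {n i g h j h' j' : ℕ}
include H

theorem B_un_St (w : Wd ι) : B p r n i 0 0 g j un (St r I g j) w = O1 p r I n i g j w / 2 := by
  have c0 : ci r 0 0 = -2 := by simp [ci]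
  have d0 : dl r 0 0 = (3 - r) / 2 := by rw [dl, c0]; push_cast; ring
  have h1 : ∀ (x : ℕ × ι) v, (x :: v).Perm w → (((x.1 : ℤ) + n - 1 - i = av r g j v) ↔
      av r 0 0 w + ci r g j = n - 2 - i) := fun x v e => by
    rw [← av_perm e, av, av, c0, List.length_cons, sm_cons]; push_cast; omega
  have h2 : ((n : ℤ) - i = av r g j w) ↔ av r 0 0 w + ci r g j = n - 2 - i := by
    rw [av, av, c0]; omega
  rw [B, O1, G1_eq H, c0]
  simp only [h2]
  split_ifs with hc
  · rw [m2_short _ fun x y u v => by simp [tw, un], m2_s1_congr (G' := fun x v => -1 *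
      (br n i (p x.2 - r / 2 + x.1 + 1 / 2) * G1 (I g j) (x.1 + n - 1 - i) v)) fun x v e => by
        rw [G1_eq H, if_pos ((h1 x v e).2 hc), tw, xi_eq, d0, sn, un]
        simp only [List.length_singleton, sm_cons, sm_nil, pw_cons, pw_nil, add_zero, Nat.cast_one]
        rw [show (p x.2 : ℂ) + x.1 - 1 + (3 - r) / 2 = p x.2 - r / 2 + x.1 + 1 / 2 by ring]
        have : (-1 : ℂ) ^ x.1 * (-1) ^ x.1 = 1 := by rw [← mul_pow]; simp
        linear_combination
          (-(br n i (p x.2 - r / 2 + x.1 + 1 / 2) * St r I g j v)) * this]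
    have h3 : ∀ G : ℕ × ι → Wd ι → ℂ, m2 (s1 fun x v => -1 * G x v) w = -1 * m2 (s1 G) w :=
      fun G => by
        rw [← m2_smul]
        exact m2_congr fun u v _ => by rcases u with _ | ⟨x, _ | _⟩ <;> simp [s1]
    rw [h3]
    simp only [tw, sn, xi, un, d0, List.map_nil, List.sum_nil, List.length_nil, sm_nil]
    norm_num
    ring
  · rw [m2_s1_congr (G' := fun _ _ => 0 * 0) fun x v e => by
      rw [G1_eq H, if_neg fun h => hc ((h1 x v e).1 h), mul_zero, mul_zero],
      m2_s1_sum (fun _ => 0) 0]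
    simp

omit H in
theorem B_un_un (hi : i ≤ n) (w : Wd ι) :
    B p r n i 0 0 0 0 un un w = if i = n then Q0 w else 0 := by
  have c0 : ci r 0 0 = -2 := by simp [ci]
  have key : ∀ u v : Wd ι, (u ++ v).Perm w → un u ≠ 0 → un v ≠ 0 →
      av r 0 0 w + ci r 0 0 = n - 2 - i → i = n ∧ ∃ a b, u = [(0, a)] ∧ v = [(0, b)] := by
    intro u v e h1 h2 hc
    rw [← av_perm e, av, c0] at hc
    rcases u with _ | ⟨⟨m, a⟩, _ | _⟩ <;> rcases v with _ | ⟨⟨m', b⟩, _ | _⟩ <;>
      first | exact absurd rfl h1 | exact absurd rfl h2 | skip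
    all_goals simp at hc
    · omega
    · omega
    · omega
    · obtain rfl : m = 0 := by omega
      obtain rfl : m' = 0 := by omega
      exact ⟨by omega, a, b, rfl, rfl⟩
  have key2 : ∀ (u v : Wd ι), (u ++ v).Perm w →
      s1 (fun x v => if x.1 = 0 ∧ v.map Prod.fst = [0] then (1 / 2 : ℂ) else 0) u v ≠ 0 →
      ∃ a b, u = [(0, a)] ∧ v = [(0, b)] := by
    intro u v _ h1
    rcases u with _ | ⟨⟨m, a⟩, _ | _⟩
    · exact absurd rfl h1
    · simp only [s1, ne_eq, ite_eq_right_iff, not_forall] at h1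
      obtain ⟨⟨rfl, h2⟩, -⟩ := h1
      rcases v with _ | ⟨⟨m', b⟩, _ | _⟩ <;> simp at h2
      exact ⟨a, b, rfl, by rw [h2]⟩
    · exact absurd rfl h1
  rw [B, Q0]
  split_ifs with hc h h
  · subst h
    rw [← m2_smul]
    refine m2_congr fun u v e => ?_
    by_cases h1 : ∃ a b, u = [(0, a)] ∧ v = [(0, b)]
    · obtain ⟨a, b, rfl, rfl⟩ := h1
      simp [tw, br_self, sn, un, s1, c0]
      norm_num
    · rw [not_not.1 fun h => h1 (key2 u v e h), tw]
      by_cases h2 : un u = 0
      · simp [h2]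
      · rw [not_not.1 fun h => h1 (key u v e h2 h hc).2]; simp
  · rw [m2_eq_zero, mul_zero]
    intro u v e
    by_cases h2 : un u = 0
    · simp [tw, h2]
    · rw [not_not.1 fun h' => h (key u v e h2 h' hc).1, mul_zero]
  · refine (m2_eq_zero fun u v e => not_not.1 fun h1 => hc ?_).symm
    obtain ⟨a, b, rfl, rfl⟩ := key2 u v e h1
    rw [← av_perm e, av, c0, h]
    simp
  · rfl

theorem B_St_St (w : Wd ι) :
    B p r n i h j h' j' (St r I h j) (St r I h' j') w = P2 p r I n i h j h' j' w := by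
  have h1 : ∀ u v : Wd ι, (u ++ v).Perm w →
      av r h j w + ci r h' j' = av r h j u + av r h' j' v := fun u v e => by
    rw [← av_perm e, av, av, av, List.length_append, sm_append]; push_cast; ring
  rw [B, P2]
  split_ifs with hc
  · rw [← m2_smul]
    refine m2_congr fun u v e => ?_
    rw [h1 u v e] at hc
    rcases lt_or_ge (av r h j u) 0 with h0 | h0
    · rw [tw, St, G1_neg _ h0, sum_eq_zero fun m _ => by
        rw [G1_eq H, if_neg (by omega), zero_mul, mul_zero]]
      simp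
    obtain ⟨m, hm⟩ := Int.eq_ofNat_of_zero_le h0
    rw [sum_eq_single m (fun m' _ hm' => by rw [G1_eq H, if_neg (by omega), zero_mul, mul_zero])
      fun hm' => by
        rw [G1_neg _ (a := n - 2 - m - i) (by simp at hm'; omega), mul_zero, mul_zero],
      G1_eq H, if_pos hm.symm, G1_eq H, if_pos (by omega), tw, xi_eq, dl]
    have h2 : (ci r h j : ℂ) = m - u.length + sm u := by
      have := congrArg (Int.cast : ℤ → ℂ) hm
      rw [av] at this
      push_cast at this
      linear_combination this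
    have h3 : (-1 : ℂ) ^ ci r h j * sn u = (-1) ^ m := by
      rw [sn, ← zpow_natCast, ← zpow_natCast, ← zpow_add₀ (by norm_num)]
      refine neg_one_zpow_congr ⟨sm u, ?_⟩
      rw [av] at hm
      push_cast
      omega
    rw [h2, show (pw p u : ℂ) + sm u - u.length + (j - (m - u.length + sm u) - r / 2 - 1 / 2) =
      j + pw p u - r / 2 - m - 1 / 2 by ring]
    linear_combination (-(br n i (j + pw p u - r / 2 - m - 1 / 2) * St r I h j u *
      St r I h' j' v) / 2) * h3
  · refine (m2_eq_zero fun u v e => sum_eq_zero fun m _ => ?_).symm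
    rw [h1 u v e] at hc
    beta_reduce
    by_cases h2 : G1 (I h j) m u = 0
    · rw [h2, zero_mul, mul_zero]
    · rw [G1_eq H h' j', if_neg (by have := G1_av H h2; omega), mul_zero, mul_zero]

theorem B_Ih (hi : i ≤ n) {w : Wd ι} (hw : i + j + j' + pw p w = r) :
    B p r n i h j h' j' (Ih r I h j) (Ih r I h' j') w = P2 p r I n i h j h' j' w +
      (if h = 0 ∧ j = 0 then O1 p r I n i h' j' w / 2 else 0) +
      (if h' = 0 ∧ j' = 0 then O1 p r I n i h j w / 2 else 0) +
      if (h = 0 ∧ j = 0) ∧ (h' = 0 ∧ j' = 0) ∧ i = n then Q0 w else 0 := by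
  unfold Ih
  rw [B_add_left, B_add_right, B_add_right, B_St_St p H]
  by_cases h1 : h = 0 ∧ j = 0 <;> by_cases h2 : h' = 0 ∧ j' = 0
  · obtain ⟨rfl, rfl⟩ := h1
    obtain ⟨rfl, rfl⟩ := h2
    simp only [and_self, if_true, true_and]
    rw [B_swap p hw, B_un_St p H, B_un_un p hi]
    ring
  · obtain ⟨rfl, rfl⟩ := h1
    simp only [h2, and_self, if_true, if_false, false_and, and_false, B_zero_right]
    rw [B_un_St p H]
    ring
  · obtain ⟨rfl, rfl⟩ := h2
    simp only [h1, and_self, if_true, if_false, false_and, B_zero_left]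
    rw [B_swap p hw, B_un_St p H]
    ring
  · simp only [h1, h2, if_false, false_and, B_zero_left, B_zero_right]
    ring

theorem O1_self {w : Wd ι} (hs : 3 ≤ 2 * g + w.length) : O1 p r I n n g j w = 0 := by
  have hp : ∀ u u' : Wd ι, u.Perm u' → I g j (u.map Prod.fst) = I g j (u'.map Prod.fst) :=
    fun u u' e => H.perm _ _ (e.map _)
  rw [O1, m2_s1_congr (G' := fun x v => if x.1 = 0 then 0 else
    (fun u : Wd ι => I g j (u.map Prod.fst)) ((x.1 - 1, x.2) :: v)) fun x v _ => by
      rw [br_self, one_mul]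
      obtain ⟨_ | m, a⟩ := x
      · rw [if_pos rfl, G1_neg _ (by simp)]
      · rw [if_neg m.succ_ne_zero, show (((m + 1 : ℕ), a).1 : ℤ) + n - 1 - n = m by
        push_cast; ring, G1_nat]
        rfl,
    m2_s1_V hp, V_low, br_self, sub_self, ← Nat.cast_zero, G1_nat,
    H.str _ _ _ (by simpa using hs), one_mul, sub_self]

omit H in
theorem sum_wt (w : Wd ι) : (w.map fun x => (p x.2 - r / 2 + x.1 + 1 / 2 : ℂ)).sum =
    pw p w + sm w - w.length * (r - 1) / 2 := by
  induction w with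
  | nil => simp
  | cons x w ih =>
    rw [List.map_cons, List.sum_cons, ih, pw_cons, sm_cons, List.length_cons]; push_cast; ring

theorem O1_dil (hr : 3 ≤ r) (hg : 1 ≤ g) {w : Wd ι} (hs : 3 ≤ 2 * g + w.length)
    (hw : j + pw p w = r) : O1 p r I 1 0 g j w = 0 := by
  have hb : ∀ x, br 1 0 x = x := fun x => by simp [br_succ_zero, br_zero]
  rw [O1, m2_s1_congr (G' := fun x _ => (p x.2 - r / 2 + x.1 + 1 / 2 : ℂ) *
    I g j (w.map Prod.fst)) fun x v e => by
      rw [hb, show (x.1 : ℤ) + (1 : ℕ) - 1 - (0 : ℕ) = x.1 by simp, G1_nat]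
      exact congrArg _ (H.perm _ _ (e.map Prod.fst)),
    m2_s1_sum, sum_wt, hb, show ((1 : ℕ) : ℤ) - (0 : ℕ) = (1 : ℕ) by simp, G1_nat]
  have h1 : I g j (w.map Prod.fst) ≠ 0 → (pw p w + sm w : ℂ) = r + w.length + 3 * g - r * g - 3 :=
    fun h => by
      have h2 := congrArg (Nat.cast : ℕ → ℂ) (H.dim _ _ _ h)
      have h3 := congrArg (Nat.cast : ℕ → ℂ) hw
      rw [List.length_map] at h2
      change ((sm w + r * g + 3 : ℕ) : ℂ) = _ at h2
      push_cast at h2 h3
      linear_combination h2 + h3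
  rcases eq_or_lt_of_le hg with rfl | hg
  · rw [H.dil _ _ (by rintro h; simp at h; simp [h] at hs), List.length_map]
    by_cases h2 : I 1 j (w.map Prod.fst) = 0
    · rw [h2]; ring
    · rw [h1 h2]; push_cast; ring
  · have h3 : ∀ l, I g j l ≠ 0 → r = 3 := fun l h => by
      have := H.deg2 _ _ _ hg h
      nlinarith
    by_cases h4 : r = 3
    · by_cases h2 : I g j (w.map Prod.fst) = 0
      · rw [h2, h4]; push_cast; ring
      · rw [h1 h2, h4]; push_cast; ring
    · rw [not_not.1 fun h => h4 (h3 _ h), not_not.1 fun h => h4 (h3 (1 :: _) h)]; ring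

omit H in
theorem P2_small (hn : n ≤ 1) (w : Wd ι) : P2 p r I n i h j h' j' w = 0 :=
  m2_eq_zero fun u v _ => sum_eq_zero fun m _ => by
    rw [G1_neg _ (a := n - 2 - m - i) (by omega), mul_zero, mul_zero]

end Vale.Agent.P269AV
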