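import Vale.Agent.P269AV.Jl

/-!
# P269AV / D0 : the coefficients of degree zero
-/

noncomputable section

namespace Vale.Agent.P269AV

open Finset
open P269A (Coh CohOK)

variable {ι : Type} [Fintype ι] [DecidableEq ι] {X : Coh ι} (h : CohOK X)
  {I : ℕ → ℕ → List ℕ → ℂ} (H : Hodge X.r X.γ I) {N : ℕ → ℕ → Wd ι → ℂ}
  (hN : ∀ (g : ℕ) w, Nr N g 0 w = ∑ j ∈ range (X.r + 1), I g j (w.map Prod.fst) * X.J j (rl w))

include hN

omit [Fintype ι] [DecidableEq ι] in
theorem dC_eq (k : ℤ) (b : ι) (g : ℕ) (v : Wd ι) : dC k b (Nr N g 0) v =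
    ∑ j ∈ range (X.r + 1), G1 (I g j) k v * X.J j (rl v ++ [b]) := by
  simp only [dC, G1]
  split_ifs
  · simp only [hN, rl_cons, List.map_cons]
  · simp

include h

theorem dC_R (i : ℕ) (k : ℤ) (a : ι) (g : ℕ) (v : Wd ι) :
    ∑ b, (X.R ^ i) a b * dC k b (Nr N g 0) v =
      ∑ j ∈ range (X.r + 1), X.γ 1 ^ i * G1 (I g j) k v * X.J (i + j) (rl v ++ [a]) := by
  simp only [dC_eq hN, mul_sum]
  rw [sum_comm]
  refine sum_congr rfl fun j _ => ?_
  simp only [mul_left_comm _ (G1 _ _ _), ← mul_sum, J_R h]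
  ring

theorem term1 (n g i : ℕ) (w : Wd ι) : ∑ m ∈ range (sm w + n + 2), ∑ a, ∑ b,
    (frob X).cA n i m a b *
      (frob X).s2 (fun u v => (frob X).ttC m a u * dC (m + n - 1 - i) b (Nr N g 0) v) w =
    ∑ j ∈ range (X.r + 1), X.γ 1 ^ i * X.J (i + j) (rl w) * O1 X.p X.r I n i g j w := by
  have h1 : ∀ j, X.γ 1 ^ i * X.J (i + j) (rl w) * O1 X.p X.r I n i g j w = (frob X).s2
      (fun u v => X.γ 1 ^ i * (s1 (fun x v => br n i (X.p x.2 - X.r / 2 + x.1 + 1 / 2) *
        G1 (I g j) (x.1 + n - 1 - i) v) u v - if u = [] then br n i ((3 - X.r) / 2) *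
          G1 (I g j) (n - i) v else 0) * X.J (i + j) (rl v ++ rl u)) w := fun j => by
    rw [s2_J' h, m2_smul, m2_sub, m2_nil_left (fun u v => if u = [] then _ else 0)
      (fun _ _ _ => by simp), if_pos rfl, O1]
    ring
  simp only [h1, ← Frob.s2_smul, ← Frob.s2_sum]
  refine Frob.s2_congr _ fun u v e => ?_
  have h2 : ∀ m a, ∑ b, (frob X).cA n i m a b * ((frob X).ttC m a u *
      dC (m + n - 1 - i) b (Nr N g 0) v) = (frob X).ttC m a u *
      (br n i (X.p a - X.r / 2 + m + 1 / 2) * ∑ j ∈ range (X.r + 1), X.γ 1 ^ i *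
        G1 (I g j) (m + n - 1 - i) v * X.J (i + j) (rl v ++ [a])) := fun m a => by
    rw [← dC_R h hN, mul_sum, mul_sum]
    exact sum_congr rfl fun b _ => by simp only [Frob.cA, Frob.μ, frob]; ring
  simp only [h2]
  have h3 := sm_perm e
  rcases u with _ | ⟨⟨m, a⟩, _ | ⟨y, u⟩⟩
  · rw [sum_eq_single 1 (fun m _ hm => sum_eq_zero fun a _ => by simp [Frob.ttC, crdC, hm])
      (by simp), sum_eq_single X.o (fun a _ ha => by simp [Frob.ttC, crdC, frob, ha]) (by simp),
      mul_sum, mul_sum]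
    refine sum_congr rfl fun j _ => ?_
    rw [J_unit h, h.po, show ((1 : ℕ) : ℤ) + n - 1 - i = n - i by push_cast; ring,
      show ((0 : ℕ) : ℂ) - X.r / 2 + (1 : ℕ) + 1 / 2 = (3 - X.r) / 2 by push_cast; ring]
    simp [Frob.ttC, crdC, frob, s1]
    ring
  · rw [sum_eq_single m (fun m' _ hm => sum_eq_zero fun a _ => by simp [Frob.ttC, crdC, hm.symm])
      (by simp at h3 ⊢; omega),
      sum_eq_single a (fun a' _ ha => by simp [Frob.ttC, crdC, ha.symm]) (by simp),
      mul_sum, mul_sum]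
    refine sum_congr rfl fun j _ => ?_
    simp [Frob.ttC, crdC, s1, rl]
    ring
  · simp [Frob.ttC, crdC, s1]

theorem term2 (n g i : ℕ) (w : Wd ι) : ∑ m ∈ range (sm w + n + 2), ∑ a, ∑ b,
    (frob X).cB n i m a b * (frob X).s2 (fun u v => ∑ x ∈ antidiagonal g,
      Nr N x.1 0 ((m, a) :: u) * dC (n - 2 - m - i) b (Nr N x.2 0) v) w =
    ∑ x ∈ antidiagonal g, ∑ j ∈ range (X.r + 1), ∑ j' ∈ range (X.r + 1),
      X.γ 1 ^ i * X.J (i + j + j') (rl w) * P2 X.p X.r I n i x.1 j x.2 j' w := by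
  have h1 : ∀ (x : ℕ × ℕ) j j', X.γ 1 ^ i * X.J (i + j + j') (rl w) *
      P2 X.p X.r I n i x.1 j x.2 j' w = (frob X).s2 (fun u v => X.γ 1 ^ i *
        (∑ m ∈ range n, (-1) ^ (m + 1) / 2 * br n i (j + pw X.p u - X.r / 2 - m - 1 / 2) *
          (G1 (I x.1 j) m u * G1 (I x.2 j') (n - 2 - m - i) v)) *
            X.J (i + j + j') (rl v ++ rl u)) w := fun x j j' => by
    rw [s2_J' h, m2_smul, P2]
    ring
  simp only [h1, ← Frob.s2_smul, ← Frob.s2_sum]
  refine Frob.s2_congr _ fun u v _ => ?_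
  rw [← sum_subset (s₁ := range n) (range_subset_range.2 (by omega)) fun m _ hm => by
    have : ¬ (0 : ℤ) ≤ n - 2 - m - i := by simp at hm; omega
    simp only [dC, this, if_false, mul_zero, sum_const_zero]]
  simp only [mul_sum, sum_mul]
  simp only [sum_comm (s := range (X.r + 1)) (t := range n)]
  rw [sum_comm (s := antidiagonal g) (t := range n)]
  refine sum_congr rfl fun m _ => ?_
  simp only [sum_comm (s := univ) (t := antidiagonal g)]
  refine sum_congr rfl fun x _ => ?_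
  have h2 : ∀ a, ∑ b, (frob X).cB n i m a b * (Nr N x.1 0 ((m, a) :: u) *
      dC (n - 2 - m - i) b (Nr N x.2 0) v) = ∑ c, ∑ j ∈ range (X.r + 1), ∑ j' ∈ range (X.r + 1),
      X.γ 1 ^ i * ((-1) ^ (m + 1) / 2 * br n i (j + pw X.p u - X.r / 2 - m - 1 / 2) *
        (G1 (I x.1 j) m u * G1 (I x.2 j') (n - 2 - m - i) v)) *
      (X.η⁻¹ a c * (X.J j (rl u ++ [a]) * X.J (i + j') (rl v ++ [c]))) := fun a => by
    simp only [Frob.cB, sum_mul]
    rw [sum_comm]
    refine sum_congr rfl fun c _ => ?_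
    have h3 := dC_R h hN i (n - 2 - m - i) c x.2 v
    simp only [mul_assoc, mul_left_comm _ (Nr N x.1 0 _), ← mul_sum (s := univ)]
    change _ * (_ * (_ * (_ * ∑ b, (X.R ^ i) c b * _))) = _
    rw [h3, hN, sum_mul]
    refine sum_congr rfl fun j _ => ?_
    simp only [mul_sum]
    refine sum_congr rfl fun j' _ => ?_
    rw [rl_cons, G1_nat]
    change I x.1 j (m :: _) * X.J j (rl u ++ [a]) *
      (_ * (br n i (X.p c - X.r / 2 - m - 1 / 2) * (X.η⁻¹ a c * _))) = _
    by_cases h4 : X.η⁻¹ a c = 0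
    · simp [h4]
    by_cases h5 : X.J j (rl u ++ [a]) = 0
    · simp [h5]
    have h6 := (inv_type h h4).1
    have h7 := (h.type _ _ h5).1
    rw [List.map_append, List.sum_append, pw_rl] at h7
    simp only [List.map_cons, List.map_nil, List.sum_cons, List.sum_nil] at h7
    rw [show X.p c = j + pw X.p u by omega]
    push_cast
    ring
  simp only [h2]
  simp only [sum_comm (s := univ) (t := range (X.r + 1)), ← mul_sum, J_contr h]
  refine sum_congr rfl fun j _ => sum_congr rfl fun j' _ => ?_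
  rw [show j + (i + j') = i + j + j' by ring]

include H in
theorem term3 (hr : 3 ≤ X.r) (n g : ℕ) (w : Wd ι) : ∑ m ∈ range (sm w + n + 2),
    ∑ i ∈ range (n + 1), ∑ a, ∑ b,
      (frob X).cB n i m a b * dC (n - 2 - m - i) b (Nr N ((g : ℤ) - 1) 0) ((m, a) :: w) =
    if g = 1 then ∑ m ∈ range n, lc X.p X.r (tr X (rl w)) n m * G2 I m (n - 2 - m) w else 0 := by
  rcases g with _ | g
  · simp [dC, Nr]
  have h1 : ∀ (m i : ℕ) a, ∑ b, (frob X).cB n i m a b *
      dC (n - 2 - m - i) b (Nr N g 0) ((m, a) :: w) = ∑ c, if i = 0 ∧ g = 0 then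
        (-1) ^ (m + 1) / 2 * br n 0 (X.p c - X.r / 2 - m - 1 / 2) *
          (X.η⁻¹ a c * X.J 0 (rl w ++ [a] ++ [c])) * G2 I m (n - 2 - m) w else 0 := by
    intro m i a
    simp only [Frob.cB, sum_mul]
    rw [sum_comm]
    refine sum_congr rfl fun c _ => ?_
    simp only [mul_assoc, ← mul_sum (s := univ)]
    change _ * (br n i (X.p c - X.r / 2 - m - 1 / 2) * (X.η⁻¹ a c * ∑ b, (X.R ^ i) c b * _)) = _
    have h2 : ∀ j, ¬ i + j = 0 → X.η⁻¹ a c * (X.γ 1 ^ i * G1 (I g j) (n - 2 - m - i)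
        ((m, a) :: w) * X.J (i + j) (rl w ++ [a] ++ [c])) = 0 := fun j hj => by
      rw [mul_left_comm, show X.η⁻¹ a c * X.J (i + j) _ = 0 from
        not_not.1 fun h3 => hj (loop_type h h3).1, mul_zero]
    rw [dC_R h hN, rl_cons, mul_sum, sum_eq_single 0 (fun j _ hj => h2 j (by omega)) (by simp)]
    split_ifs with h3
    · obtain ⟨rfl, rfl⟩ := h3
      have : G1 (I 0 0) (n - 2 - m - (0 : ℕ)) ((m, a) :: w) = G2 I m (n - 2 - m) w := by
        simp [G1, G2]
      rw [this]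
      ring
    · rcases eq_or_ne i 0 with rfl | hi
      · have : G1 (I g 0) (n - 2 - m - (0 : ℕ)) ((m, a) :: w) = 0 := by
          by_contra h4
          obtain ⟨k, -, h5⟩ := G1_ne h4
          obtain rfl | h6 : g = 1 ∨ 2 ≤ g := by omega
          · have := H.deg1 _ _ h5
            omega
          · have := H.deg2 _ _ _ h6 h5
            nlinarith
        rw [this]
        ring
      · rw [h2 0 (by omega)]
        ring
  simp only [Nat.cast_succ, add_sub_cancel_right, h1]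
  rcases eq_or_ne g 0 with rfl | hg
  swap
  · simp [hg]
  rw [if_pos rfl, ← sum_subset (s₁ := range n) (range_subset_range.2 (by omega)) fun m _ hm => by
    simp [G2_neg (I := I) (a := m) (b := n - 2 - m) (by simp at hm; omega)]]
  refine sum_congr rfl fun m _ => ?_
  rw [sum_eq_single 0 (fun i _ hi => by simp [hi]) (by simp), lc, sum_comm, mul_sum, sum_mul]
  refine sum_congr rfl fun c _ => ?_
  simp only [and_self, if_true, tr, mul_sum, sum_mul, mul_assoc]

omit hN in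
theorem term4 (n : ℕ) (w : Wd ι) : ∑ a, ∑ b, (X.R ^ n * X.η) a b / 2 *
    (frob X).s2 (fun u v => crdC 0 b u * crdC 0 a v) w = X.γ 1 ^ n * X.J n (rl w) * Q0 w := by
  rw [Q0, mul_right_comm, ← m2_smul, ← s2_J' h]
  simp only [← Frob.s2_smul, ← Frob.s2_sum, Rη_eq h]
  refine Frob.s2_congr _ fun u v _ => ?_
  by_cases h1 : ∃ a b, u = [(0, b)] ∧ v = [(0, a)]
  · obtain ⟨a, b, rfl, rfl⟩ := h1
    rw [sum_eq_single a (fun a' _ ha => by simp [crdC, ha.symm]) (by simp),
      sum_eq_single b (fun a' _ ha => by simp [crdC, ha.symm]) (by simp)]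
    simp [crdC, s1, rl]
    ring
  · rw [sum_eq_zero fun a _ => sum_eq_zero fun b _ => by
      have : ¬ u = [(0, b)] ∨ ¬ v = [(0, a)] := not_and_or.1 fun h2 => h1 ⟨a, b, h2⟩
      rcases this with h2 | h2 <;> simp [crdC, h2]]
    rcases u with _ | ⟨⟨m, b⟩, _ | _⟩
    · simp [s1]
    · rw [s1, if_neg, mul_zero, zero_mul]
      rintro ⟨rfl : m = 0, h2⟩
      rcases v with _ | ⟨⟨m', a⟩, _ | _⟩ <;> simp at h2
      exact h1 ⟨a, b, rfl, by rw [h2]⟩
    · simp [s1]

include H in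
theorem zC_zero (hr : 3 ≤ X.r) (n g : ℕ) (w : Wd ι) : (frob X).zC N n g 0 w = 0 := by
  rw [← ZO_eq_zero H (dat h w) hr n g w rfl, Frob.zC, ZO, Lp]
  simp only [Frob.zmC, mul_add, sum_add_distrib, Int.natAbs_natCast, Nat.antidiagonal_zero,
    sum_singleton, if_neg (not_lt.2 (Int.natCast_nonneg g))]
  rw [term3 h H hN hr, sum_comm, sum_comm (s := range (sm w + n + 2))]
  simp only [term1 h hN, term2 h hN]
  have h1 := term4 h n w
  change ∑ a, ∑ b, ((frob X).R ^ n * (frob X).η) a b / 2 * _ = _ at h1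
  simp only [h1, Nat.cast_eq_zero, Nat.cast_eq_one, and_true]
  by_cases hw : w = []
  · subst hw
    by_cases hg : g = 1 <;> simp [hg]
    ring
  · by_cases hg : g = 1 <;> simp [hg, hw]
    ring

end Vale.Agent.P269AV
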