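import Mathlib.RingTheory.LaurentSeries
import Mathlib.LinearAlgebra.Matrix.NonsingularInverse
import Mathlib.Data.Complex.Basic

/-!
# P269AV / Defs : formal functions on a superspace and the Virasoro operators

A formal function `F` of the variables `t^a_m` is given by its Taylor coefficients:
`F [x_1, .., x_n] = (∂_{x_n} ⋯ ∂_{x_1} F) (0)`, with left derivatives.
-/

noncomputable section

namespace Vale.Agent.P269AV

open Polynomial

/-- The numerical data of a homogeneous basis `φ_a` of the cohomology: `φ_a` has type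
`(p a, q a)`, `φ_one = 1`, `η a b = ∫ φ_a φ_b`, `c_1 φ_a = ∑ R a b φ_b`. -/
structure Frob (ι : Type) where
  r : ℕ
  p : ι → ℕ
  q : ι → ℕ
  one : ι
  η : Matrix ι ι ℂ
  R : Matrix ι ι ℂ

/-- Laurent series in `ħ`, power series in the Novikov variable `Q` -/
abbrev Λ : Type := PowerSeries (LaurentSeries ℂ)

/-- formal functions of the variables `t^a_m`, indexed by `(m, a)` -/
abbrev Ser (ι : Type) : Type := List (ℕ × ι) → Λ

/-- the element `c ħ ^ j` -/
def hbar (j : ℤ) (c : ℂ) : Λ := PowerSeries.C (HahnSeries.single j c)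

/-- the coefficient of `Q ^ d ħ ^ j` -/
def cf (d : ℕ) (j : ℤ) (x : Λ) : ℂ := (PowerSeries.coeff d x).coeff j

/-- the number `[x]^k_i`, the coefficient of `s ^ i` in `(s + x) (s + x + 1) ⋯ (s + x + k)`,
for `n = k + 1` -/
def br (n i : ℕ) (x : ℂ) : ℂ := (∏ l ∈ Finset.range n, (X + C (x + l))).coeff i

variable {ι : Type} [Fintype ι] [DecidableEq ι] (X : Frob ι)

/-- the derivative `∂_{a,m}`, zero for `m < 0` -/
def der (m : ℤ) (a : ι) (F : Ser ι) : Ser ι := fun w => if 0 ≤ m then F ((m.toNat, a) :: w) else 0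

/-- the coordinate `t^a_m` -/
def crd (m : ℕ) (a : ι) : Ser ι := fun w => if w = [(m, a)] then 1 else 0

/-- the constant function -/
def cst (c : Λ) : Ser ι := fun w => if w = [] then c else 0

namespace Frob

/-- the cohomological degree of a word -/
def deg (w : List (ℕ × ι)) : ℕ := (w.map fun x => X.p x.2 + X.q x.2).sum

/-- the product, given by the Leibniz rule with the Koszul sign -/
def mul : Ser ι → Ser ι → Ser ι
  | F, G, [] => F [] * G []
  | F, G, x :: w => mul (fun u => F (x :: u)) G w +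
      mul (fun u => (-1) ^ (X.deg [x] * X.deg u) * F u) (fun u => G (x :: u)) w

/-- powers -/
def pow (F : Ser ι) : ℕ → Ser ι
  | 0 => cst 1
  | n + 1 => X.mul F (pow F n)

/-- `Z = ∑ F ^ n / n!`, each coefficient being a finite sum -/
def IsExp (F Z : Ser ι) : Prop := ∀ w d j, ∃ N : ℕ, (∀ n ≥ N, cf d j (X.pow F n w) = 0) ∧
  cf d j (Z w) = ∑ n ∈ Finset.range N, cf d j (X.pow F n w) / n.factorial

/-- the grading `μ_a = p_a - r / 2` -/
def μ (a : ι) : ℂ := X.p a - X.r / 2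

/-- the constant `χ / 16 - str (μ ^ 2) / 4` -/
def ρ : ℂ := ∑ a, (-1) ^ (X.p a + X.q a) * (1 / 16 - X.μ a ^ 2 / 4)

/-- the shifted coordinate `t^a_m - δ_{a,0} δ_{m,1}` -/
def tt (m : ℕ) (a : ι) : Ser ι := crd m a - if m = 1 ∧ a = X.one then cst 1 else 0

/-- the summand of `L_k`, `k = n - 1`, with index `m` -/
def Lm (n m : ℕ) (Z : Ser ι) : Ser ι := ∑ i ∈ Finset.range (n + 1), ∑ a, ∑ b,
  (hbar 0 (br n i (X.μ a + m + 1 / 2) * (X.R ^ i) a b) •
      X.mul (X.tt m a) (der (m + n - 1 - i) b Z) +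
    hbar 1 (∑ c, (-1) ^ (m + 1) / 2 * br n i (X.μ c - m - 1 / 2) * X.η⁻¹ a c * (X.R ^ i) c b) •
      der m a (der (n - 2 - m - i) b Z))

/-- the Virasoro operator `L_k`, `k = n - 1` -/
def L (n : ℕ) (Z : Ser ι) : Ser ι := (fun w => ∑ᶠ m, X.Lm n m Z w) +
  (∑ a, ∑ b, hbar (-1) ((X.R ^ n * X.η) a b / 2) • X.mul (crd 0 b) (X.mul (crd 0 a) Z)) +
    hbar 0 (if n = 1 then X.ρ else 0) • Z

end Frob

/-- the potential `∑ ħ ^ (g - 1) Q ^ d F_{g,d}` of the numbers `N g d [x_1, .., x_n]` -/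
def pot (N : ℕ → ℕ → List (ℕ × ι) → ℂ) : Ser ι := fun w => PowerSeries.mk fun d =>
  HahnSeries.single (-1 : ℤ) 1 *
    HahnSeries.ofPowerSeries ℤ ℂ (PowerSeries.mk fun g => N g d w.reverse)

end Vale.Agent.P269AV
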