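import Vale.Agent.P269AV.IF
import Vale.Agent.P269AV.Br

/-!
# P269AV / Ext : the integrals with a distinguished first marking, extended to the unstable range
-/

noncomputable section

namespace Vale.Agent.P269AV

open Polynomial

variable {ι : Type} (p : ι → ℕ) (r : ℕ) {γ : ℕ → ℂ} (I : ℕ → ℕ → List ℕ → ℂ)

theorem V_low (f : List ℕ → ℂ) (u : Wd ι) :
    V (fun u => f (u.map Prod.fst)) u = low f (u.map Prod.fst) := by
  induction u generalizing f with
  | nil => rfl
  | cons x u ih => exact congrArg (_ + ·) (ih fun l => f (x.1 :: l))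

/-- the integral with a first marking of level `a` -/
def G1 (f : List ℕ → ℂ) (a : ℤ) (u : Wd ι) : ℂ :=
  if 0 ≤ a then f (a.toNat :: u.map Prod.fst) else 0

/-- the shift in the dimension constraint -/
def ci (h j : ℕ) : ℤ := (3 - r) * h - 2 + j

/-- the level of the first marking which is forced by the dimension constraint -/
def av (h j : ℕ) (u : Wd ι) : ℤ := u.length - sm u + ci r h j

/-- the stable part -/
def St (h j : ℕ) (u : Wd ι) : ℂ := G1 (I h j) (av r h j u) u

/-- the unstable part -/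
def un : Wd ι → ℂ
  | [] => 1
  | [x] => (-1) ^ x.1
  | _ => 0

/-- the extended function -/
def Ih (h j : ℕ) (u : Wd ι) : ℂ := St r I h j u + if h = 0 ∧ j = 0 then un u else 0

variable {r I}

theorem av_perm {h j : ℕ} {u v : Wd ι} (e : u.Perm v) : av r h j u = av r h j v := by
  rw [av, av, sm_perm e, e.length_eq]

theorem av_zero (h j : ℕ) (a : ι) (u : Wd ι) : av r h j ((0, a) :: u) = av r h j u + 1 := by
  simp only [av, List.length_cons, sm_cons]; push_cast; ring

theorem Low.av {h j : ℕ} {u w : Wd ι} (e : Low u w) : av r h j u = av r h j w + 1 := by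
  rw [P269AV.av, P269AV.av, ← e.2, e.length]; push_cast; ring

theorem un_perm {u v : Wd ι} (e : u.Perm v) : un u = un v := by
  rcases u with _ | ⟨x, _ | ⟨y, u⟩⟩
  · rw [e.nil_eq]
  · rw [List.singleton_perm.1 e]
  · have := e.length_eq
    rcases v with _ | ⟨x', _ | ⟨y', v⟩⟩
    · simp at this
    · simp at this
    · rfl

theorem un_long {u : Wd ι} (h : 2 ≤ u.length) : un u = 0 := by
  rcases u with _ | ⟨x, _ | ⟨y, u⟩⟩
  · simp at h
  · simp at h
  · rfl

theorem G1_ne {f : List ℕ → ℂ} {a : ℤ} {u : Wd ι} (h : G1 f a u ≠ 0) :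
    ∃ m : ℕ, a = m ∧ f (m :: u.map Prod.fst) ≠ 0 := by
  rw [G1] at h
  split_ifs at h with h0
  · exact ⟨a.toNat, by omega, h⟩
  · exact absurd rfl h

theorem G1_nat (f : List ℕ → ℂ) (m : ℕ) (u : Wd ι) : G1 f m u = f (m :: u.map Prod.fst) := by
  rw [G1, if_pos (Int.natCast_nonneg m), Int.toNat_natCast]

theorem G1_neg (f : List ℕ → ℂ) {a : ℤ} (h : a < 0) (u : Wd ι) : G1 f a u = 0 :=
  if_neg (not_le.2 h)

theorem V_G1 (f : List ℕ → ℂ) (m : ℕ) (u : Wd ι) :
    V (G1 f m) u = low (fun l => f (m :: l)) (u.map Prod.fst) := by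
  rw [← V_low]
  exact V_congr fun v _ => G1_nat f m v

variable (H : Hodge r γ I)
include H

theorem G1_perm (h j : ℕ) (a : ℤ) {u v : Wd ι} (e : u.Perm v) :
    G1 (I h j) a u = G1 (I h j) a v := by
  rw [G1, G1, H.perm h j ((e.map _).cons _)]

theorem St_perm (h j : ℕ) (u v : Wd ι) (e : u.Perm v) : St r I h j u = St r I h j v := by
  rw [St, St, av_perm e, G1_perm H h j _ e]

theorem Ih_perm (h j : ℕ) (u v : Wd ι) (e : u.Perm v) : Ih r I h j u = Ih r I h j v := by
  rw [Ih, Ih, St_perm H h j u v e, un_perm e]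

theorem G1_av {h j : ℕ} {a : ℤ} {u : Wd ι} (e : G1 (I h j) a u ≠ 0) : a = av r h j u := by
  obtain ⟨m, rfl, h1⟩ := G1_ne e
  have h2 := H.dim _ _ _ h1
  simp only [List.sum_cons, List.length_cons, List.length_map] at h2
  have h3 : ((m + sm u + r * h + 3 : ℕ) : ℤ) = (u.length + 1 + 3 * h + j : ℕ) := congrArg _ h2
  rw [av, ci]
  push_cast at h3
  linear_combination h3

theorem G1_eq (h j : ℕ) (a : ℤ) (u : Wd ι) :
    G1 (I h j) a u = if a = av r h j u then St r I h j u else 0 := by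
  split_ifs with h1
  · rw [St, h1]
  · by_contra h2
    exact h1 (G1_av H h2)

theorem G1_short {j : ℕ} (a : ℤ) {u : Wd ι} (h : u.length ≤ 1) : G1 (I 0 j) a u = 0 := by
  by_contra h1
  obtain ⟨m, -, h2⟩ := G1_ne h1
  have := H.stab _ _ _ h2
  simp at this
  omega

theorem G1_string {h j : ℕ} (a : ℤ) (b : ι) {u : Wd ι} (hs : 2 ≤ 2 * h + u.length) :
    G1 (I h j) a ((0, b) :: u) = G1 (I h j) (a - 1) u + V (G1 (I h j) a) u := by
  rcases lt_or_ge a 0 with h0 | h0
  · rw [G1_neg _ h0, G1_neg _ (by omega), V_eq_zero fun v _ => G1_neg _ h0 v, add_zero]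
  obtain ⟨m, rfl⟩ := Int.eq_ofNat_of_zero_le h0
  rw [G1_nat, V_G1, List.map_cons, H.perm h j (List.Perm.swap _ _ _),
    H.str _ _ _ (by simp; omega), low]
  congr 1
  rcases m with _ | m
  · rw [if_pos rfl, G1_neg _ (by simp)]
  · rw [if_neg m.succ_ne_zero, show ((m + 1 : ℕ) : ℤ) - 1 = m by simp, G1_nat]
    rfl

theorem G1_three (j : ℕ) (a : ℤ) (b : ι) (x : ℕ × ι) :
    G1 (I 0 j) a [(0, b), x] = if j = 0 ∧ a = 0 ∧ x.1 = 0 then 1 else 0 := by
  split_ifs with h
  · obtain ⟨rfl, rfl, h⟩ := h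
    rw [← H.val]
    simp [G1, h]
  · by_contra h1
    obtain ⟨m, rfl, h2⟩ := G1_ne h1
    have h3 := H.deg0 _ _ h2
    have h4 := H.dim _ _ _ h2
    simp at h4
    exact h ⟨h3, by omega, by omega⟩

theorem Ih_string (h j : ℕ) (b : ι) (u : Wd ι) :
    Ih r I h j ((0, b) :: u) = Ih r I h j u + V (Ih r I h j) u := by
  have h1 : V (Ih r I h j) u = V (G1 (I h j) (av r h j u + 1)) u +
      V (fun v => if h = 0 ∧ j = 0 then un v else 0) u := by
    rw [← V_add]
    exact V_congr fun v e => by rw [Ih, St, e.av]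
  rw [h1, Ih, Ih, St, St, av_zero]
  by_cases hs : 2 ≤ 2 * h + u.length
  · rw [G1_string H _ _ hs, add_sub_cancel_right]
    split_ifs with h2
    · rw [un_long (by simp; omega), un_long (by omega),
        V_eq_zero (f := un) fun v e => un_long (by rw [e.length]; omega)]
      ring
    · rw [V_zero]; ring
  obtain rfl : h = 0 := by omega
  rw [G1_short H _ (u := u) (by omega),
    V_eq_zero (f := G1 _ _) fun v e => G1_short H _ (by rw [e.length]; omega)]
  rcases u with _ | ⟨⟨m, c⟩, _ | ⟨y, u⟩⟩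
  · rw [G1_short H _ (by simp)]
    simp [un, V]
  · rw [G1_three H]
    rcases eq_or_ne j 0 with rfl | hj
    · rcases m with _ | m
      · simp [un, V, av, ci]
      · simp [un, V, pow_succ]
    · simp [hj, V]
  · simp at hs

omit H

/-- the shift of the argument of the polynomial -/
def dl (r h j : ℕ) : ℂ := j - (ci r h j : ℂ) - r / 2 - 1 / 2

/-- the sum of the weights -/
def pw (w : Wd ι) : ℕ := ((w.map Prod.snd).map p).sum

theorem pw_perm {u v : Wd ι} (e : u.Perm v) : pw p u = pw p v := ((e.map _).map _).sum_eq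

theorem Low.pw {u w : Wd ι} (e : Low u w) : pw p u = pw p w := by
  rw [P269AV.pw, P269AV.pw, e.1]

@[simp] theorem pw_nil : pw p [] = 0 := rfl
@[simp] theorem pw_cons (x : ℕ × ι) (w : Wd ι) : pw p (x :: w) = p x.2 + pw p w := by simp [pw]
@[simp] theorem pw_append (u v : Wd ι) : pw p (u ++ v) = pw p u + pw p v := by simp [pw]

theorem xi_eq (u : Wd ι) : xi (fun a => (p a : ℂ)) u = pw p u + sm u - u.length := by
  rw [xi, pw]
  congr 2
  induction u.map Prod.snd with
  | nil => simp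
  | cons a l ih => simp [ih]

/-- the bilinear expression -/
def B (r n i h j h' j' : ℕ) (f f' : Wd ι → ℂ) (w : Wd ι) : ℂ :=
  if av r h j w + ci r h' j' = n - 2 - i then -(-1) ^ ci r h j / 2 *
    m2 (fun u v => tw (fun a => (p a : ℂ)) (fun s => br n i (s + dl r h j)) f u * f' v) w else 0

variable {n i h j h' j' : ℕ} {f f' : Wd ι → ℂ}

theorem B_perm (hp : ∀ u u', u.Perm u' → f u = f u') (hp' : ∀ u u', u.Perm u' → f' u = f' u')
    {w w' : Wd ι} (e : w.Perm w') : B p r n i h j h' j' f f' w = B p r n i h j h' j' f f' w' := by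
  rw [B, B, av_perm e, m2_perm (fun u u' v e => by rw [tw, tw, sn_perm e, xi_perm _ e, hp _ _ e])
    (fun u v v' e => by rw [hp' _ _ e]) e]

theorem B_string {a : ι} (ha : p a = 0) (hf : ∀ u, f ((0, a) :: u) = f u + V f u)
    (hf' : ∀ u, f' ((0, a) :: u) = f' u + V f' u) (w : Wd ι) :
    B p r (n + 1) i h j h' j' f f' ((0, a) :: w) = V (B p r (n + 1) i h j h' j' f f') w +
      (n + 1) * B p r n i h j h' j' f f' w := by
  by_cases hc : av r h j w + ci r h' j' = n - 2 - i
  · rw [V_congr (g := fun u => -(-1) ^ ci r h j / 2 * m2 (fun u v => tw (fun a => (p a : ℂ))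
      (fun s => br (n + 1) i (s + dl r h j)) f u * f' v) u) fun u e => by
        rw [B, if_pos (by rw [e.av]; push_cast; omega)],
      V_smul, B, B, if_pos hc, if_pos (by rw [av_zero]; push_cast; omega),
      m2_string _ _ (by simp [ha]) hf hf', mul_add, mul_left_comm, ← m2_smul ((n : ℂ) + 1)]
    congr 2
    refine m2_congr fun u v _ => ?_
    rw [tw, tw, show ∀ s t : ℂ, s - 1 + t = s + t - 1 from fun s t => by ring, br_diff]
    ring
  · rw [V_eq_zero fun u e => by rw [B, if_neg (by rw [e.av]; push_cast; omega)], B, B, if_neg hc,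
      if_neg (by rw [av_zero]; push_cast; omega)]
    simp

theorem B_gt (hi : n < i) (w : Wd ι) : B p r n i h j h' j' f f' w = 0 := by
  rw [B, m2_eq_zero fun u v _ => by rw [tw, br_gt hi, mul_zero, zero_mul, zero_mul]]
  simp

theorem B_add_left (g : Wd ι → ℂ) (w : Wd ι) : B p r n i h j h' j' (fun u => f u + g u) f' w =
    B p r n i h j h' j' f f' w + B p r n i h j h' j' g f' w := by
  simp only [B, tw, mul_add, add_mul, m2_add]
  split_ifs <;> simp

theorem B_add_right (g : Wd ι → ℂ) (w : Wd ι) : B p r n i h j h' j' f (fun u => f' u + g u) w =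
    B p r n i h j h' j' f f' w + B p r n i h j h' j' f g w := by
  simp only [B, mul_add, m2_add]
  split_ifs <;> simp

theorem B_zero_left (w : Wd ι) : B p r n i h j h' j' (fun _ => 0) f' w = 0 := by
  simp [B, tw, m2_zero]

theorem B_zero_right (w : Wd ι) : B p r n i h j h' j' f (fun _ => 0) w = 0 := by
  simp [B, m2_zero]

theorem neg_one_zpow_congr {a b : ℤ} (h : Even (a - b)) : (-1 : ℂ) ^ a = (-1) ^ b := by
  rw [show a = (a - b) + b by ring, zpow_add₀ (by norm_num), h.neg_one_zpow, one_mul]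

theorem B_swap {w : Wd ι} (hw : i + j + j' + pw p w = r) :
    B p r n i h j h' j' f f' w = B p r n i h' j' h j f' f w := by
  have h1 : av r h' j' w + ci r h j = av r h j w + ci r h' j' := by rw [av, av]; ring
  rw [B, B, h1]
  split_ifs with hc
  swap
  · rfl
  rw [← m2_swap, ← m2_smul, ← m2_smul]
  refine m2_congr fun u v e => ?_
  have h2 := e.length_eq
  have h3 := sm_perm e
  have h4 := pw_perm p e
  rw [List.length_append] at h2
  rw [sm_append] at h3
  rw [pw_append] at h4
  rw [av, ← h2, ← h3] at hc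
  rw [← h4] at hw
  have h5 := congrArg (Int.cast : ℤ → ℂ) hc
  have h6 := congrArg (Nat.cast : ℕ → ℂ) hw
  push_cast at h5 h6 hc
  have h7 : xi (fun a => (p a : ℂ)) v + dl r h j =
      1 - n - (xi (fun a => (p a : ℂ)) u + dl r h' j') := by
    rw [xi_eq, xi_eq, dl, dl]
    linear_combination h6 - h5
  have h8 : (-1 : ℂ) ^ ci r h j * sn v * (-1) ^ (n + i) = (-1) ^ ci r h' j' * sn u := by
    rw [sn, sn, ← zpow_natCast, ← zpow_natCast, ← zpow_natCast, ← zpow_add₀ (by norm_num),
      ← zpow_add₀ (by norm_num), ← zpow_add₀ (by norm_num)]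
    refine neg_one_zpow_congr ⟨n - 1 - ci r h' j' + sm v - u.length, ?_⟩
    push_cast
    omega
  rw [tw, tw, h7, br_symm]
  linear_combination (-(br n i (xi (fun a => (p a : ℂ)) u + dl r h' j') * f v * f' u) / 2) * h8

theorem B_genus_zero (H : Hodge r γ I) (hi : i ≤ n) (w : Wd ι) :
    B p r n i 0 j 0 j' (Ih r I 0 j) (Ih r I 0 j') w = 0 := by
  have h0 : ∀ j ≠ 0, Ih (ι := ι) r I 0 j = fun _ => 0 := fun j hj => by
    ext u
    rw [Ih, if_neg fun h => hj h.2, add_zero]
    by_contra h1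
    obtain ⟨m, -, h2⟩ := G1_ne h1
    exact hj (H.deg0 _ _ h2)
  rcases eq_or_ne j 0 with rfl | hj
  swap
  · rw [h0 j hj, B_zero_left]
  rcases eq_or_ne j' 0 with rfl | hj
  swap
  · rw [h0 j' hj, B_zero_right]
  rw [B]
  split_ifs with hc
  swap
  · rfl
  obtain ⟨Q, h1, h2⟩ := br_poly n i
  have h3 := m2_vanish (fun a => (p a : ℂ)) (Ih_perm H 0 0) (Ih_perm H 0 0) (Ih_string H 0 0)
    (Ih_string H 0 0) _ w (n + 1 - i) 0 (taylor (dl r 0 0) Q) rfl
    (by simp only [av, ci] at hc; omega) (by rwa [degree_taylor])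
  simp only [taylor_eval, h2, Function.iterate_zero, id] at h3
  rw [h3, mul_zero]

end Vale.Agent.P269AV
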