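import Vale.Agent.P269AV.Defs
import Vale.Agent.P269A.IF

/-!
# P269AV / IF : the input of the algebraic part, and its output
-/

noncomputable section

namespace Vale.Agent.P269AV

open P269A (Coh CohOK ModOK Van vd)

variable {ι : Type} [Fintype ι] [DecidableEq ι]

/-- the sum of `f` over all lists obtained by lowering one positive entry by one -/
def low : (List ℕ → ℂ) → List ℕ → ℂ
  | _, [] => 0
  | f, m :: l => (if m = 0 then 0 else f ((m - 1) :: l)) + low (fun u => f (m :: u)) l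

/-- The integrals `I g j [m_1, .., m_n]` of `ψ_1 ^ m_1 ⋯ ψ_n ^ m_n` times a polynomial of degree
`r g - j` in the classes `λ_i`. -/
structure Hodge (r : ℕ) (γ : ℕ → ℂ) (I : ℕ → ℕ → List ℕ → ℂ) : Prop where
  perm : ∀ g j {l l'}, l.Perm l' → I g j l = I g j l'
  stab : ∀ g j l, I g j l ≠ 0 → 3 ≤ 2 * g + l.length
  dim : ∀ g j l, I g j l ≠ 0 → l.sum + r * g + 3 = l.length + 3 * g + j
  deg0 : ∀ j l, I 0 j l ≠ 0 → j = 0
  deg1 : ∀ j l, I 1 j l ≠ 0 → r ≤ j + 1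
  deg2 : ∀ g j l, 2 ≤ g → I g j l ≠ 0 → r * g + 3 ≤ 3 * g + j
  str : ∀ g j l, 3 ≤ 2 * g + l.length → I g j (0 :: l) = low (I g j) l
  dil : ∀ j l, l ≠ [] → I 1 j (1 :: l) = l.length * I 1 j l
  val : I 0 0 [0, 0, 0] = 1
  val1 : I 1 r [1] = γ r / 24
  val0 : I 1 (r - 1) [0] = - γ (r - 1) / 24

/-- the integrals which enter the invariants of degree zero -/
def II (X : Coh ι) (I : ℕ → List ℕ → MvPolynomial ℕ ℂ → ℂ) (g j : ℕ) (l : List ℕ) : ℂ :=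
  if 2 < 2 * g + l.length then I g l ((X.eul g).coeff j) else 0

/-- Row M. -/
def RowM : Prop := ∀ (ι : Type) [Fintype ι] [DecidableEq ι] (X : Coh ι) I,
  ModOK I → 3 ≤ X.r → Hodge X.r X.γ (II X I)

/-- the data of the Virasoro operators -/
def frob (X : Coh ι) : Frob ι := ⟨X.r, X.p, X.q, X.o, X.η, X.R⟩

/-- The output of the algebraic part. -/
def VIR (X : Frob ι) (c : ℤ) (N : ℕ → ℕ → List (ℕ × ι) → ℂ) : Prop :=
  ∃ Z, X.IsExp (pot N) Z ∧
    (∀ n, ∃ ζ, X.L n Z = X.mul ζ Z ∧ (∀ d w, ∀ j < -1, cf d j (ζ w) = 0) ∧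
      ∀ (g d : ℕ) w, d = 0 ∨ vd X.r c g d < 0 → cf d (g - 1) (ζ w) = 0) ∧
    (c < 3 - X.r → ∀ n, X.L n Z = 0)

/-- Row E: the exponential exists and satisfies its differential equation. -/
def RowE : Prop := ∀ (ι : Type) [Fintype ι] [DecidableEq ι] (X : Frob ι)
  (N : ℕ → ℕ → List (ℕ × ι) → ℂ), (∀ g l, N g 0 l ≠ 0 → 3 ≤ 2 * g + l.length) →
  (∀ g d l, N g d l ≠ 0 → Even (X.deg l)) →
  ∃ Z, X.IsExp (pot N) Z ∧ ∀ x, (fun u => Z (x :: u)) = X.mul (fun u => pot N (x :: u)) Z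

end Vale.Agent.P269AV
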