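import Vale.Agent.P269AV.Core

/-!
# P269AV / Zed : the vanishing in degree zero
-/

noncomputable section

namespace Vale.Agent.P269AV

open Finset

variable {ι : Type} [Fintype ι] (p : ι → ℕ) (r : ℕ) (γ : ℕ → ℂ) (I : ℕ → ℕ → List ℕ → ℂ)
  (J : ℕ → ℂ) (t : ι → ℂ) (ρ : ℂ)

/-- the integral in genus zero with two distinguished markings -/
def G2 (a b : ℤ) (w : Wd ι) : ℂ :=
  if 0 ≤ a ∧ 0 ≤ b then I 0 0 (b.toNat :: a.toNat :: w.map Prod.fst) else 0

/-- the coefficient of the loop term -/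
def lc (n m : ℕ) : ℂ := (-1) ^ (m + 1) / 2 * ∑ c, br n 0 (p c - r / 2 - m - 1 / 2) * t c

/-- the loop term and the constant -/
def Lp (n : ℕ) (w : Wd ι) : ℂ := ∑ m ∈ range n, lc p r t n m * G2 I m (n - 2 - m) w +
  if n = 1 ∧ w = [] then ρ else 0

/-- the symmetric form -/
def ZB (n g : ℕ) (w : Wd ι) : ℂ := ∑ i ∈ range (n + 1), ∑ x ∈ antidiagonal g,
  ∑ j ∈ range (r + 1), ∑ j' ∈ range (r + 1),
    γ 1 ^ i * J (i + j + j') * B p r n i x.1 j x.2 j' (Ih r I x.1 j) (Ih r I x.2 j') w +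
  if g = 1 then Lp p r I t ρ n w else 0

/-- the original form -/
def ZO (n g : ℕ) (w : Wd ι) : ℂ :=
  ∑ i ∈ range (n + 1), ∑ j ∈ range (r + 1), γ 1 ^ i * J (i + j) * O1 p r I n i g j w +
  ∑ i ∈ range (n + 1), ∑ x ∈ antidiagonal g, ∑ j ∈ range (r + 1), ∑ j' ∈ range (r + 1),
    γ 1 ^ i * J (i + j + j') * P2 p r I n i x.1 j x.2 j' w +
  (if g = 0 then γ 1 ^ n * J n * Q0 w else 0) + if g = 1 then Lp p r I t ρ n w else 0

/-- the hypotheses on the numbers attached to a class of weight `s` -/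
structure Dat (s : ℕ) : Prop where
  hJ : ∀ e, J e ≠ 0 → e + s = r
  ht : ∀ c, t c ≠ 0 → s = 0
  h1 : ∑ c, ((p c - r / 2 : ℂ) ^ 2 - 1 / 4) * t c = -4 * ρ
  h2 : ρ = ((3 - r) / 2 * γ r / 24 - γ (r - 1) * γ 1 / 24) * J r

variable {p r γ I J t ρ} (H : Hodge r γ I) {s n g : ℕ} {w : Wd ι}

omit [Fintype ι] in
theorem G2_neg {a b : ℤ} (h : a < 0 ∨ b < 0) (w : Wd ι) : G2 I a b w = 0 := if_neg (by omega)

omit [Fintype ι] in
theorem G2_nat (a b : ℕ) (w : Wd ι) : G2 I a b w = I 0 0 (b :: a :: w.map Prod.fst) := by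
  simp [G2]

theorem sum_left (A : ℕ → ℕ → ℕ → ℂ) : ∑ x ∈ antidiagonal g, ∑ j ∈ range (r + 1),
    ∑ j' ∈ range (r + 1), (if x.1 = 0 ∧ j = 0 then A x.2 j j' else 0) =
      ∑ j' ∈ range (r + 1), A g 0 j' := by
  rw [sum_eq_single (0, g) (fun x hx h => sum_eq_zero fun j _ => sum_eq_zero fun j' _ =>
    if_neg fun h' => h (by
      rw [HasAntidiagonal.mem_antidiagonal] at hx; ext <;> simp <;> omega)) (by simp),
    sum_eq_single 0 (fun j _ h => sum_eq_zero fun j' _ => if_neg fun h' => h h'.2) (by simp)]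
  simp

theorem sum_right (A : ℕ → ℕ → ℕ → ℂ) : ∑ x ∈ antidiagonal g, ∑ j ∈ range (r + 1),
    ∑ j' ∈ range (r + 1), (if x.2 = 0 ∧ j' = 0 then A x.1 j j' else 0) =
      ∑ j ∈ range (r + 1), A g j 0 := by
  rw [sum_eq_single (g, 0) (fun x hx h => sum_eq_zero fun j _ => sum_eq_zero fun j' _ =>
    if_neg fun h' => h (by
      rw [HasAntidiagonal.mem_antidiagonal] at hx; ext <;> simp <;> omega)) (by simp)]
  simp

include H

theorem ZB_eq (hJ : ∀ e, J e ≠ 0 → e + pw p w = r) :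
    ZB p r γ I J t ρ n g w = ZO p r γ I J t ρ n g w := by
  have h1 : ∀ i ∈ range (n + 1), ∀ (x : ℕ × ℕ) j j', γ 1 ^ i * J (i + j + j') *
      B p r n i x.1 j x.2 j' (Ih r I x.1 j) (Ih r I x.2 j') w =
      γ 1 ^ i * J (i + j + j') * P2 p r I n i x.1 j x.2 j' w +
      (if x.1 = 0 ∧ j = 0 then γ 1 ^ i * J (i + j + j') * O1 p r I n i x.2 j' w / 2 else 0) +
      (if x.2 = 0 ∧ j' = 0 then γ 1 ^ i * J (i + j + j') * O1 p r I n i x.1 j w / 2 else 0) +
      if x.1 = 0 ∧ j = 0 then if (x.2 = 0 ∧ j' = 0) ∧ i = n then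
        γ 1 ^ i * J (i + j + j') * Q0 w else 0 else 0 := fun i hi x j j' => by
    by_cases h0 : J (i + j + j') = 0
    · simp [h0]
    rw [B_Ih p H (by simpa [Nat.lt_succ_iff] using hi) (hJ _ h0), ← ite_and]
    split_ifs <;> ring
  rw [ZB, ZO, sum_congr rfl fun i hi => sum_congr rfl fun x _ => sum_congr rfl fun j _ =>
    sum_congr rfl fun j' _ => h1 i hi x j j']
  simp only [sum_add_distrib]
  have h2 := fun i => sum_left (g := g) (r := r)
    fun h j j' => γ 1 ^ i * J (i + j + j') * O1 p r I n i h j' w / 2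
  have h3 := fun i => sum_right (g := g) (r := r)
    fun h j j' => γ 1 ^ i * J (i + j + j') * O1 p r I n i h j w / 2
  have h4 := fun i => sum_left (g := g) (r := r) fun h j j' =>
    if (h = 0 ∧ j' = 0) ∧ i = n then γ 1 ^ i * J (i + j + j') * Q0 w else 0
  simp only [h2, h3, h4, add_zero]
  have h5 : ∑ i ∈ range (n + 1), ∑ j' ∈ range (r + 1), (if (g = 0 ∧ j' = 0) ∧ i = n then
      γ 1 ^ i * J (i + j') * Q0 w else 0) = if g = 0 then γ 1 ^ n * J n * Q0 w else 0 := by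
    rw [sum_eq_single n (fun i _ h => sum_eq_zero fun j _ => if_neg fun h' => h h'.2) (by simp),
      sum_eq_single 0 (fun j _ h => if_neg fun h' => h h'.1.2) (by simp)]
    simp
  rw [h5]
  simp only [← sum_div]
  ring

omit [Fintype ι] in
theorem G2_string (a b : ℤ) (c : ι) (w : Wd ι) : G2 I a b ((0, c) :: w) = G2 I (a - 1) b w +
    G2 I a (b - 1) w + V (G2 I a b) w + if a = 0 ∧ b = 0 ∧ w = [] then 1 else 0 := by
  by_cases h0 : a < 0 ∨ b < 0
  · rw [G2_neg h0, G2_neg (by omega), G2_neg (by omega), V_eq_zero fun u _ => G2_neg h0 u,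
      if_neg (by omega)]
    simp
  obtain ⟨a, rfl⟩ := Int.eq_ofNat_of_zero_le (by omega : 0 ≤ a)
  obtain ⟨b, rfl⟩ := Int.eq_ofNat_of_zero_le (by omega : 0 ≤ b)
  have h1 : ∀ (a : ℤ) (u : Wd ι), G2 I a b u = G1 (fun l => I 0 0 (b :: l)) a u := fun a u => by
    simp [G2, G1]
  have h2 : ∀ (b : ℤ) u, G2 I a b u = G1 (I 0 0) b ((a, c) :: u) := fun b u => by simp [G2, G1]
  rw [h2, G1_perm H 0 0 _ (List.Perm.swap _ _ _)]
  rcases w with _ | ⟨x, w⟩
  · rw [G1_three H, h1, h2, G1_short H _ (by simp), V]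
    have : G1 (fun l => I 0 0 (b :: l)) ((a : ℤ) - 1) ([] : Wd ι) = 0 := by
      by_contra h
      obtain ⟨m, -, h⟩ := G1_ne h
      simpa using H.stab _ _ _ h
    simp [this, and_comm]
  · rw [G1_string H _ _ (by simp), ← h2, V, if_neg (by simp : ¬ (_ ∧ _ ∧ x :: w = [])),
      ← funext (h2 b)]
    have : (if a = 0 then 0 else G1 (I 0 0) b ((a - 1, c) :: x :: w)) =
        G2 I (a - 1) b (x :: w) := by
      rcases a with _ | a
      · rw [if_pos rfl, G2_neg (by simp)]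
      · rw [if_neg a.succ_ne_zero, show ((a + 1 : ℕ) : ℤ) - 1 = a by simp, G2_nat, G1_nat]; rfl
    rw [this]
    ring

theorem Lp_string (D : Dat p r γ J t ρ s) (c : ι) (w : Wd ι) :
    Lp p r I t ρ (n + 2) ((0, c) :: w) = V (Lp p r I t ρ (n + 2)) w +
      ((n + 1 : ℕ) + 1) * Lp p r I t ρ (n + 1) w := by
  have h1 : ∀ m, lc p r t (n + 2) (m + 1) + lc p r t (n + 2) m =
      ((n + 1 : ℕ) + 1) * lc p r t (n + 1) m := fun m => by
    rw [lc, lc, lc, mul_left_comm, mul_sum _ _ (_ + 1 : ℂ)]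
    simp only [← mul_assoc, ← br_diff, sub_mul, sum_sub_distrib]
    simp only [show ∀ x : ℂ, x - ((m + 1 : ℕ) : ℂ) - 1 / 2 = x - m - 1 / 2 - 1 from
      fun x => by push_cast; ring]
    ring
  have h2 : lc p r t 2 0 = 2 * ρ := by
    have := D.h1
    rw [lc, sum_congr rfl fun c _ => show br 2 0 (p c - r / 2 - (0 : ℕ) - 1 / 2) * t c =
      ((p c - r / 2 : ℂ) ^ 2 - 1 / 4) * t c by simp only [br_succ_zero, br_zero]; simp; left; ring,
      this]
    ring
  have h3 : Lp p r I t ρ (n + 2) = fun u => ∑ m ∈ range (n + 2),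
      lc p r t (n + 2) m * G2 I m ((n + 2 : ℕ) - 2 - m) u := by
    ext u; rw [Lp, if_neg (by omega), add_zero]
  rw [h3, V_sum, Lp]
  simp only [V_smul, G2_string H, mul_add, sum_add_distrib]
  rw [sum_range_succ' (fun m => _ * G2 I (m - 1) _ w), G2_neg (Or.inl (by simp)),
    sum_range_succ (fun m => _ * G2 I m (_ - 1) w), G2_neg (Or.inr (by push_cast; omega)),
    sum_eq_single 0 (f := fun m : ℕ => _ * ite _ _ _) (fun m _ h => by
      rw [if_neg (by omega), mul_zero]) (by simp), mul_sum]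
  simp only [← mul_assoc, ← h1, add_mul, sum_add_distrib]
  have h4 : ∀ m : ℕ, G2 I ((m + 1 : ℕ) - 1) ((n + 2 : ℕ) - 2 - (m + 1 : ℕ)) w =
      G2 I m ((n + 1 : ℕ) - 2 - m) w := fun m => by congr 1 <;> push_cast <;> ring
  have h5 : ∀ m : ℕ, G2 I m ((n + 2 : ℕ) - 2 - m - 1) w = G2 I m ((n + 1 : ℕ) - 2 - m) w :=
    fun m => by congr 1; push_cast; ring
  simp only [h4, h5]
  rcases n with _ | n
  · by_cases hw : w = []
    · simp [hw, h2]; ring
    · simp [hw]; ring
  · rw [if_neg (by push_cast; omega), if_neg (by omega)]; ring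

theorem ZB_perm {w w' : Wd ι} (e : w.Perm w') :
    ZB p r γ I J t ρ n g w = ZB p r γ I J t ρ n g w' := by
  have h1 : ∀ a b, G2 I a b w = G2 I a b w' := fun a b => by
    rw [G2, G2, H.perm 0 0 (((e.map _).cons _).cons _)]
  have h2 : w = [] ↔ w' = [] := by
    rw [← List.length_eq_zero_iff, ← List.length_eq_zero_iff, e.length_eq]
  simp only [ZB, Lp, h1, h2, B_perm p (Ih_perm H _ _) (Ih_perm H _ _) e]

theorem ZB_string (D : Dat p r γ J t ρ s) {c : ι} (hc : p c = 0) (w : Wd ι) :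
    ZB p r γ I J t ρ (n + 2) g ((0, c) :: w) = V (ZB p r γ I J t ρ (n + 2) g) w +
      ((n + 1 : ℕ) + 1) * ZB p r γ I J t ρ (n + 1) g w := by
  unfold ZB
  simp only [V_add, V_sum, V_smul, B_string p hc (Ih_string H _ _ c) (Ih_string H _ _ c), mul_add,
    sum_add_distrib, mul_left_comm _ ((n + 1 : ℕ) + 1 : ℂ), ← mul_sum]
  rw [sum_range_succ (n := n + 1 + 1) (fun i => ∑ x ∈ antidiagonal g, ∑ j ∈ range (r + 1),
    ∑ j' ∈ range (r + 1), _ * B p r (n + 1) i _ _ _ _ _ _ w)]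
  simp only [B_gt p (n + 1).lt_succ_self, mul_zero, sum_const_zero, add_zero]
  split_ifs with hg
  · rw [Lp_string H D]; ring
  · rw [V_zero]; ring

theorem ZB_deg (D : Dat p r γ J t ρ s) (hr : 3 ≤ r) (hg : 1 ≤ g) (hw : pw p w = s)
    (h : w.length ≤ sm w + pw p w) : ZB p r γ I J t ρ (n + 2) g w = 0 := by
  rw [ZB, sum_eq_zero, Lp, sum_eq_zero, if_neg (by omega : ¬ (n + 2 = 1 ∧ _))]
  · simp
  · intro m hm
    by_contra h1
    obtain ⟨c, -, h2⟩ := exists_ne_zero_of_sum_ne_zero (right_ne_zero_of_mul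
      (left_ne_zero_of_mul h1))
    have h3 := D.ht c (right_ne_zero_of_mul h2)
    have h4 := right_ne_zero_of_mul h1
    rw [G2] at h4
    split_ifs at h4 with h5
    · have h6 := H.dim _ _ _ h4
      simp only [List.sum_cons, List.length_cons, List.length_map] at h6
      change _ + (_ + sm w) + _ + _ = _ at h6
      omega
    · exact h4 rfl
  · refine fun i _ => sum_eq_zero fun x hx => sum_eq_zero fun j _ => sum_eq_zero fun j' _ => ?_
    by_cases h0 : J (i + j + j') = 0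
    · simp [h0]
    have h1 := D.hJ _ h0
    rw [B, if_neg, mul_zero]
    rw [HasAntidiagonal.mem_antidiagonal] at hx
    rw [av, ci, ci]
    have h2 : (3 - r : ℤ) * x.1 + (3 - r) * x.2 ≤ 3 - r := by
      rw [← mul_add, ← Nat.cast_add, hx]
      nlinarith
    push_cast
    omega

theorem ZO_base (D : Dat p r γ J t ρ s) (hr : 3 ≤ r) (hg : 1 ≤ g) (hw : pw p w = s) (hn : n ≤ 1) :
    ZO p r γ I J t ρ n g w = 0 := by
  have h1 : Lp p r I t ρ n w = if n = 1 ∧ w = [] then ρ else 0 := by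
    rw [Lp, sum_eq_zero fun m _ => by rw [G2_neg (Or.inr (by omega)), mul_zero], zero_add]
  rw [ZO, h1, if_neg (by omega : ¬ g = 0)]
  simp only [P2_small p hn, mul_zero, sum_const_zero, add_zero]
  by_cases hs : 3 ≤ 2 * g + w.length
  · rw [sum_eq_zero, zero_add]
    · split_ifs with h2 h3
      · simp [h2, h3.2] at hs
      · rfl
      · rfl
    refine fun i hi => sum_eq_zero fun j _ => ?_
    by_cases h0 : J (i + j) = 0
    · simp [h0]
    have h2 := D.hJ _ h0
    rcases eq_or_ne i n with rfl | h3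
    · rw [O1_self p H hs, mul_zero]
    · obtain rfl : i = 0 := by simp at hi; omega
      obtain rfl : n = 1 := by omega
      rw [O1_dil p H hr hg hs (by omega), mul_zero]
  obtain rfl : g = 1 := by omega
  obtain rfl : w = [] := List.length_eq_zero_iff.1 (by omega)
  obtain rfl : 0 = s := hw
  have h2 : ∀ i j, O1 p r I n i 1 j ([] : Wd ι) =
      - (br n i ((3 - r) / 2) * G1 (I 1 j) (n - i) ([] : Wd ι)) := fun i j => by
    simp [O1, m2, s1]
  have h3 : ∀ i (f : ℕ → ℂ), i ≤ 1 → ∑ j ∈ range (r + 1), γ 1 ^ i * J (i + j) * f j =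
      γ 1 ^ i * J r * f (r - i) := fun i f hi => by
    rw [sum_eq_single (r - i) (fun j _ h => by
      rw [show J (i + j) = 0 from not_not.1 fun h0 => h (by have := D.hJ _ h0; omega)]; simp)
      (by simp), show i + (r - i) = r by omega]
  obtain rfl | rfl : n = 0 ∨ n = 1 := by omega
  · rw [sum_range_one, h3 0 _ zero_le_one, h2, G1_eq H, if_neg (by simp [av, ci]; omega)]
    simp
  · rw [sum_range_succ, sum_range_one, h3 0 _ zero_le_one, h3 1 _ le_rfl, h2, h2, br_self, sub_self,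
      ← Nat.cast_zero (R := ℤ), G1_nat, show ((1 : ℕ) : ℤ) - (0 : ℕ) = (1 : ℕ) by simp, G1_nat,
      D.h2]
    simp only [List.map_nil, H.val0, tsub_zero, H.val1, br_succ_zero, br_zero]
    simp
    ring

omit H [Fintype ι] in
theorem exists_zero' (h : sm w + pw p w < w.length) :
    ∃ a w', p a = 0 ∧ w.Perm ((0, a) :: w') := by
  induction w with
  | nil => simp at h
  | cons x w ih =>
    obtain ⟨m, a⟩ := x
    by_cases h0 : m = 0 ∧ p a = 0
    · exact ⟨a, w, h0.2, by rw [h0.1]⟩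
    · obtain ⟨b, w', h1, h'⟩ := ih (by simp at h; omega)
      exact ⟨b, (m, a) :: w', h1, (h'.cons _).trans (List.Perm.swap _ _ _)⟩

/-- The constraints in degree zero. -/
theorem ZO_eq_zero (D : Dat p r γ J t ρ s) (hr : 3 ≤ r) (n g : ℕ) (w : Wd ι) (hw : pw p w = s) :
    ZO p r γ I J t ρ n g w = 0 := by
  rw [← ZB_eq H (hw ▸ D.hJ)]
  rcases Nat.eq_zero_or_pos g with rfl | hg
  · rw [ZB, if_neg zero_ne_one, add_zero]
    refine sum_eq_zero fun i hi => sum_eq_zero fun x hx => sum_eq_zero fun j _ =>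
      sum_eq_zero fun j' _ => ?_
    obtain rfl : x = (0, 0) := by simpa using hx
    rw [B_genus_zero p H (by simpa [Nat.lt_succ_iff] using hi), mul_zero]
  have h0 : ∀ n ≤ 1, ∀ w : Wd ι, pw p w = s → ZB p r γ I J t ρ n g w = 0 := fun n hn w hw => by
    rw [ZB_eq H (hw ▸ D.hJ), ZO_base H D hr hg hw hn]
  rcases n with _ | n
  · exact h0 0 zero_le_one w hw
  induction n generalizing w with
  | zero => exact h0 1 le_rfl w hw
  | succ n ih =>
    generalize hN : w.length = N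
    induction N generalizing w with
    | zero => exact ZB_deg H D hr hg hw (by omega)
    | succ N ih' =>
      by_cases h1 : w.length ≤ sm w + pw p w
      · exact ZB_deg H D hr hg hw h1
      obtain ⟨a, w', ha, e⟩ := exists_zero' (not_le.1 h1)
      have h2 : pw p w' = s := by rw [← hw, pw_perm p e, pw_cons, ha, zero_add]
      have h3 : w'.length = N := by simpa [hN] using e.length_eq.symm
      rw [ZB_perm H e, ZB_string H D ha, ih w' h2, mul_zero, add_zero]
      exact V_eq_zero fun u hu => ih' u ((hu.pw p).trans h2) (hu.length.trans h3)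

end Vale.Agent.P269AV
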