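import Vale.Agent.P269AV.Zeta
import Vale.Agent.P269AV.Zed

/-!
# P269AV / Jl : the integrals over the target
-/

noncomputable section

namespace Vale.Agent.P269AV

open Finset
open P269A (Coh CohOK)

variable {ι : Type} [Fintype ι] [DecidableEq ι] {X : Coh ι} (h : CohOK X)

theorem neg_one_pow_congr' {a b : ℕ} (e : a % 2 = b % 2) : (-1 : ℂ) ^ a = (-1) ^ b := by
  rw [neg_one_pow_eq_pow_mod_two, e, ← neg_one_pow_eq_pow_mod_two]

/-- the degree of a list of classes -/
def dg (X : Coh ι) (l : List ι) : ℕ := (l.map X.deg).sum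

/-- the classes of a word, in the reversed order -/
def rl (w : Wd ι) : List ι := w.reverse.map Prod.snd

section
omit [Fintype ι] [DecidableEq ι]

@[simp] theorem dg_nil : dg X [] = 0 := rfl
@[simp] theorem dg_cons (a : ι) (l : List ι) : dg X (a :: l) = X.deg a + dg X l := by simp [dg]
@[simp] theorem dg_append (l l' : List ι) : dg X (l ++ l') = dg X l + dg X l' := by simp [dg]
@[simp] theorem rl_nil : rl ([] : Wd ι) = [] := rfl
theorem rl_cons (x : ℕ × ι) (w : Wd ι) : rl (x :: w) = rl w ++ [x.2] := by simp [rl]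

theorem dg_eq (l : List ι) : dg X l = (l.map X.p).sum + (l.map X.q).sum := by
  induction l with
  | nil => rfl
  | cons a l ih => simp only [dg_cons, ih, Coh.deg, List.map_cons, List.sum_cons]; ring

theorem pw_rl (p : ι → ℕ) (w : Wd ι) : ((rl w).map p).sum = pw p w := by
  induction w with
  | nil => rfl
  | cons x w ih => simp [rl_cons, ih, add_comm]

end

theorem dg_rl (w : Wd ι) : dg X (rl w) = (frob X).deg w := by
  induction w with
  | nil => rfl
  | cons x w ih =>
    rw [rl_cons, dg_append, ih, Frob.deg_cons, add_comm]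
    rfl

include h

theorem J_move (e : ℕ) (a : ι) (x l₁ l₂ : List ι) : X.J e (l₁ ++ x ++ a :: l₂) =
    (-1) ^ (X.deg a * dg X x) * X.J e (l₁ ++ a :: (x ++ l₂)) := by
  induction x generalizing l₁ with
  | nil => simp
  | cons b x ih =>
    have := ih (l₁ ++ [b])
    simp only [List.append_assoc, List.cons_append, List.nil_append] at this ⊢
    rw [this, h.swap, dg_cons]
    ring

theorem J_even {e : ℕ} {l : List ι} (h0 : X.J e l ≠ 0) : dg X l + 2 * e = 2 * X.r := by
  have := h.type e l h0
  rw [dg_eq]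
  omega

theorem J_rot (e : ℕ) (b : ι) (y : List ι) :
    X.J e (y ++ [b]) = (-1) ^ dg X y * X.J e (b :: y) := by
  have := J_move h e b y [] []
  simp only [List.nil_append, List.append_nil] at this
  rw [this]
  by_cases h0 : X.J e (b :: y) = 0
  · rw [h0, mul_zero, mul_zero]
  · have h1 := J_even h h0
    rw [dg_cons] at h1
    rw [neg_one_pow_congr' (b := dg X y)]
    rcases Nat.mod_two_eq_zero_or_one (dg X y) with h2 | h2
    · simp [Nat.mul_mod, h2]
    · simp [Nat.mul_mod, h2, show X.deg b % 2 = 1 by omega]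

theorem J_blk (e : ℕ) (x y l₁ : List ι) :
    X.J e (l₁ ++ x ++ y) = (-1) ^ (dg X y * dg X x) * X.J e (l₁ ++ y ++ x) := by
  induction y generalizing l₁ with
  | nil => simp
  | cons b y ih =>
    have := ih (l₁ ++ [b])
    rw [J_move h]
    simp only [List.append_assoc, List.cons_append, List.nil_append] at this ⊢
    rw [this, dg_cons]
    ring

theorem J_contr (e₁ e₂ : ℕ) (x y : List ι) : ∑ a, ∑ c,
    X.η⁻¹ a c * (X.J e₁ (x ++ [a]) * X.J e₂ (y ++ [c])) = X.J (e₁ + e₂) (y ++ x) := by
  have h1 := J_blk h (e₁ + e₂) x y []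
  simp only [List.nil_append] at h1
  have h2 : X.J (e₁ + e₂) (y ++ x) = (-1) ^ dg X y * X.J (e₁ + e₂) (x ++ y) := by
    rw [h1]
    by_cases h0 : X.J (e₁ + e₂) (y ++ x) = 0
    · rw [h0, mul_zero, mul_zero]
    · have h3 := J_even h h0
      rw [dg_append] at h3
      rw [← mul_assoc, ← pow_add, neg_one_pow_congr' (b := 0), pow_zero, one_mul]
      rcases Nat.mod_two_eq_zero_or_one (dg X y) with h2 | h2
      · simp [Nat.mul_mod, Nat.add_mod, h2]
      · simp [Nat.mul_mod, Nat.add_mod, h2, show dg X x % 2 = 1 by omega]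
  rw [h2, ← h.split, mul_sum]
  refine sum_congr rfl fun a _ => ?_
  rw [mul_sum]
  refine sum_congr rfl fun c _ => ?_
  rw [J_rot h e₂]
  ring

theorem J_R (i e : ℕ) (y : List ι) (c : ι) :
    ∑ b, (X.R ^ i) c b * X.J e (y ++ [b]) = X.γ 1 ^ i * X.J (i + e) (y ++ [c]) := by
  have h1 : ∀ e c, ∑ b, X.R c b * X.J e (y ++ [b]) = X.γ 1 * X.J (1 + e) (y ++ [c]) :=
    fun e c => by
      rw [← J_contr h, mul_sum]
      simp only [Coh.R, Matrix.mul_apply, Matrix.of_apply, sum_mul, mul_sum]
      rw [sum_comm]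
      exact sum_congr rfl fun a _ => sum_congr rfl fun b _ => by
        rw [List.singleton_append]; ring
  induction i generalizing c with
  | zero => simp [Matrix.one_apply]
  | succ i ih =>
    simp only [pow_succ', Matrix.mul_apply, sum_mul, mul_assoc]
    rw [sum_comm]
    simp only [← mul_sum, ih, mul_left_comm _ (X.γ 1 ^ i)]
    rw [h1, show 1 + (i + e) = i + 1 + e by ring]

theorem inv_type {a c : ι} (h0 : X.η⁻¹ a c ≠ 0) :
    X.p a + X.p c = X.r ∧ X.q a + X.q c = X.r := by
  have key : ∀ f : ι → ℕ, (∀ a b, X.η a b ≠ 0 → f a + f b = X.r) → f a + f c = X.r := by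
    intro f hf
    have h1 : X.η * Matrix.diagonal (fun a => (f a : ℂ)) =
        Matrix.diagonal (fun a => (X.r - f a : ℂ)) * X.η := by
      ext a b
      rw [Matrix.mul_diagonal, Matrix.diagonal_mul]
      by_cases h2 : X.η a b = 0
      · simp [h2]
      · rw [← hf a b h2]; push_cast; ring
    have h2 : Matrix.diagonal (fun a => (f a : ℂ)) * X.η⁻¹ =
        X.η⁻¹ * Matrix.diagonal (fun a => (X.r - f a : ℂ)) := by
      rw [← Matrix.nonsing_inv_mul_cancel_left X.η (Matrix.diagonal _ * _) h.nondeg,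
        ← Matrix.mul_assoc X.η, h1, Matrix.mul_nonsing_inv_cancel_right _ _ h.nondeg]
    have h3 := congrFun (congrFun h2 a) c
    rw [Matrix.mul_diagonal, Matrix.diagonal_mul, mul_comm] at h3
    have h4 := mul_left_cancel₀ h0 h3
    exact_mod_cast (eq_sub_iff_add_eq.1 h4)
  exact ⟨key X.p fun a b h1 => by simpa using (h.type 0 _ h1).1,
    key X.q fun a b h1 => by simpa using (h.type 0 _ h1).2⟩

theorem J_unit (e : ℕ) (y l : List ι) : X.J e (y ++ X.o :: l) = X.J e (y ++ l) := by
  have := J_move h e X.o y [] l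
  simp only [List.nil_append] at this
  rw [this, h.unit, Coh.deg, h.po, h.qo]
  simp

theorem J_zero {y : List ι} (h0 : dg X y = 0) (e : ℕ) (l : List ι) : X.J e (y ++ l) = X.J e l := by
  induction y with
  | nil => rfl
  | cons a y ih =>
    rw [dg_cons, Coh.deg] at h0
    rw [h.conn a (by omega) (by omega), List.cons_append, h.unit, ih (by omega)]

theorem s2_J (e : ℕ) (K : Wd ι → Wd ι → ℂ) (l : List ι) (w : Wd ι) :
    (frob X).s2 (fun u v => K u v * X.J e (rl v ++ rl u ++ l)) w =
      m2 K w * X.J e (rl w ++ l) := by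
  induction w generalizing K l with
  | nil => rfl
  | cons x w ih =>
    rw [Frob.s2, m2, add_mul, rl_cons, List.append_assoc, ← ih, ← ih]
    congr 1
    · exact Frob.s2_congr _ fun u v _ => by simp only [rl_cons, List.append_assoc]
    · refine Frob.s2_congr _ fun u v _ => ?_
      rw [List.singleton_append, J_move h, dg_rl, rl_cons]
      simp only [List.append_assoc, List.singleton_append]
      rw [mul_left_comm]
      simp [Frob.deg, frob, Coh.deg]

theorem s2_J' (e : ℕ) (K : Wd ι → Wd ι → ℂ) (w : Wd ι) :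
    (frob X).s2 (fun u v => K u v * X.J e (rl v ++ rl u)) w = m2 K w * X.J e (rl w) := by
  simpa using s2_J h e K [] w

theorem Rη_eq (n : ℕ) (a b : ι) : (X.R ^ n * X.η) a b = X.γ 1 ^ n * X.J n [a, b] := by
  have h1 : ∀ e c, X.J e [c, b] = (-1) ^ X.deg b * X.J e ([b] ++ [c]) := fun e c => by
    rw [J_rot h, ← mul_assoc, dg_cons, dg_nil, add_zero, ← mul_pow]
    simp
  simp only [Matrix.mul_apply, Coh.η, h1, mul_left_comm _ ((-1 : ℂ) ^ _)]
  rw [← mul_sum, J_R h, add_zero]

/-- the numbers which enter the loop term -/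
def tr (X : Coh ι) (y : List ι) (c : ι) : ℂ := ∑ a, X.η⁻¹ a c * X.J 0 (y ++ [a] ++ [c])

theorem loop_type {e : ℕ} {y : List ι} {a c : ι}
    (h0 : X.η⁻¹ a c * X.J e (y ++ [a] ++ [c]) ≠ 0) : e = 0 ∧ dg X y = 0 := by
  have h1 := inv_type h (left_ne_zero_of_mul h0)
  have h2 := J_even h (right_ne_zero_of_mul h0)
  simp only [dg_append, dg_cons, dg_nil, Coh.deg] at h2
  omega

theorem dat (w : Wd ι) : Dat X.p X.r X.γ (fun e => X.J e (rl w)) (tr X (rl w))
    (if dg X (rl w) = 0 then (frob X).ρ else 0) (pw X.p w) := by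
  have h1 : ∀ c, tr X (rl w) c ≠ 0 → dg X (rl w) = 0 := fun c h0 => by
    obtain ⟨a, -, h2⟩ := exists_ne_zero_of_sum_ne_zero h0
    exact (loop_type h h2).2
  refine ⟨fun e h0 => by rw [← pw_rl]; exact (h.type e _ h0).1, fun c h0 => ?_, ?_, ?_⟩
  · have := h1 c h0
    rw [dg_eq, pw_rl] at this
    omega
  · split_ifs with h0
    · have h2 : ∀ c, tr X (rl w) c = (-1) ^ (X.p c + X.q c) := fun c => by
        have h3 := congrFun (congrFun (Matrix.mul_nonsing_inv _ h.nondeg) c) c
        rw [Matrix.mul_apply, Matrix.one_apply_eq] at h3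
        refine Eq.trans ?_ ((congrArg (_ * ·) h3).trans (mul_one _))
        rw [mul_sum, tr]
        refine sum_congr rfl fun a _ => ?_
        have h4 := J_rot h 0 a [c]
        have h5 : (-1 : ℂ) ^ (X.p c + X.q c) * (-1) ^ (X.p c + X.q c) = 1 := by
          rw [← mul_pow]; simp
        rw [List.append_assoc, J_zero h h0, Coh.η]
        simp only [dg_cons, dg_nil, add_zero, List.singleton_append, Coh.deg] at h4 ⊢
        rw [h4]
        linear_combination (-(X.η⁻¹ a c * X.J 0 [a, c])) * h5
      simp only [h2, Frob.ρ, Frob.μ, frob, mul_sum]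
      exact sum_congr rfl fun c _ => by ring
    · rw [sum_eq_zero fun c _ => by rw [not_not.1 fun h2 => h0 (h1 c h2), mul_zero], mul_zero]
  · split_ifs with h0
    · have h2 := h.gb
      have h3 := h.lw
      have h4 := J_zero h h0 X.r []
      rw [List.append_nil] at h4
      have h5 : (frob X).ρ = X.str (fun _ => 1) / 16 - X.str (fun a => X.μ a ^ 2) / 4 := by
        simp only [Frob.ρ, Frob.μ, frob, Coh.str, Coh.μ, Coh.deg, sum_div, ← sum_sub_distrib]
        exact sum_congr rfl fun c _ => by ring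
      rw [h5, h2, h3, h4]
      ring
    · rw [show X.J X.r (rl w) = 0 from not_not.1 fun h2 => h0 (by have := J_even h h2; omega),
        mul_zero]

end Vale.Agent.P269AV
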