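import Vale.Agent.P269AV.D0
import Vale.Agent.P269AM.Main
import Vale.Agent.P269AX.Exp
import Vale.Agent.P269Z.Stmt

/-!
# P269AV / Main : block A
-/

noncomputable section

namespace Vale.Agent.P269AV

open Finset
open P269A (Coh CohOK ModOK Van vd)

variable {ι : Type} [Fintype ι] [DecidableEq ι] {X : Coh ι} (h : CohOK X)

/-- the excess of a word -/
def ex (X : Coh ι) (w : Wd ι) : ℕ := (w.map fun i => X.deg i.2 - 2).sum

omit [Fintype ι] [DecidableEq ι] in
theorem ex_le (w : Wd ι) : ex X w ≤ dg X (rl w) - 2 := by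
  induction w with
  | nil => simp [ex]
  | cons x w ih =>
    rw [rl_cons, dg_append, dg_cons, dg_nil]
    change X.deg x.2 - 2 + ex X w ≤ _
    omega

include h

theorem R_deg (i : ℕ) {c b : ι} (h0 : (X.R ^ i) c b ≠ 0) : X.deg c ≤ X.deg b := by
  induction i generalizing c with
  | zero =>
    obtain rfl : c = b := by
      by_contra h1
      exact h0 (Matrix.one_apply_ne h1)
    exact le_rfl
  | succ i ih =>
    rw [pow_succ', Matrix.mul_apply] at h0
    obtain ⟨a, -, h1⟩ := exists_ne_zero_of_sum_ne_zero h0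
    have h2 := left_ne_zero_of_mul h1
    rw [Coh.R, Matrix.mul_apply] at h2
    obtain ⟨e, -, h3⟩ := exists_ne_zero_of_sum_ne_zero h2
    have h4 := J_even h (right_ne_zero_of_mul (left_ne_zero_of_mul h3))
    have h5 := inv_type h (right_ne_zero_of_mul h3)
    have h6 := ih (right_ne_zero_of_mul h1)
    simp only [dg_cons, dg_nil, Coh.deg] at h4 h6 ⊢
    omega

theorem cB_deg {n i m : ℕ} {a b : ι} (h0 : (frob X).cB n i m a b ≠ 0) :
    2 * X.r ≤ X.deg a + X.deg b := by
  obtain ⟨c, -, h1⟩ := exists_ne_zero_of_sum_ne_zero h0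
  have h2 := inv_type h (right_ne_zero_of_mul (left_ne_zero_of_mul h1))
  have h3 := R_deg h i (right_ne_zero_of_mul h1)
  simp only [Coh.deg] at h3 ⊢
  omega

theorem zC_pos {N : ℕ → ℕ → Wd ι → ℂ} {c : ℤ}
    (hV : ∀ (g d : ℕ) w, ¬ (g = 0 ∧ d = 0) → Nr N g d w ≠ 0 → (ex X w : ℤ) ≤ 2 * vd X.r c g d)
    (n : ℕ) {g d : ℕ} (hd : 0 < d) (hv : vd X.r c g d < 0) (w : Wd ι) :
    (frob X).zC N n g d w = 0 := by
  have h1 : ∀ v, Nr N g d v = 0 := fun v => by
    by_contra h2
    have := hV g d v (by omega) h2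
    omega
  have h2 : ∀ {k b f} {v : Wd ι}, dC k b f v ≠ 0 → ∃ m, f ((m, b) :: v) ≠ 0 := fun h2 => by
    rw [dC] at h2
    split_ifs at h2
    · exact ⟨_, h2⟩
    · exact absurd rfl h2
  rw [Frob.zC, if_neg (by omega), if_neg (by omega), add_zero, add_zero]
  refine sum_eq_zero fun m _ => sum_eq_zero fun i _ => sum_eq_zero fun a _ =>
    sum_eq_zero fun b _ => ?_
  rw [Frob.s2_eq_zero _ fun u v _ => by simp [dC, h1], mul_zero, zero_add]
  by_cases h3 : (frob X).cB n i m a b = 0
  · rw [h3, zero_mul]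
  have h4 := cB_deg h h3
  rw [Frob.s2_eq_zero, add_zero, not_not.1 fun h5 : dC _ _ _ _ ≠ 0 => ?_, mul_zero]
  · obtain ⟨k, h6⟩ := h2 h5
    rcases g with _ | g
    · simp [Nr] at h6
    · rw [Nat.cast_succ, add_sub_cancel_right] at h6
      have h7 := hV g d _ (by omega) h6
      change ((X.deg b - 2 + (X.deg a - 2 + ex X w) : ℕ) : ℤ) ≤ _ at h7
      have h8 : vd X.r c g d = vd X.r c (g + 1) d + X.r - 3 := by
        simp only [vd]; push_cast; ring
      omega
  · intro u v _
    rw [if_neg (by omega), Int.natAbs_natCast]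
    refine sum_eq_zero fun e he => sum_eq_zero fun x hx => ?_
    rw [HasAntidiagonal.mem_antidiagonal] at he hx
    by_contra h5
    have h6 := left_ne_zero_of_mul h5
    obtain ⟨k, h7⟩ := h2 (right_ne_zero_of_mul h5)
    have h8 := hV _ _ _ (fun h8 => h7 (by
      rw [show x.2 = g by omega, show e.2 = d by omega, h1])) h6
    have h9 := hV _ _ _ (fun h9 => h6 (by
      rw [show x.1 = g by omega, show e.1 = d by omega, h1])) h7
    change ((X.deg a - 2 + ex X u : ℕ) : ℤ) ≤ _ at h8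
    change ((X.deg b - 2 + ex X v : ℕ) : ℤ) ≤ _ at h9
    have h10 : vd X.r c x.1 e.1 + vd X.r c x.2 e.2 = vd X.r c g d + X.r - 3 := by
      simp only [vd, ← he, ← hx]; push_cast; ring
    omega

omit h in
theorem ba : P269Z.BA := by
  intro ι _ _ X I N c h hI hr h0 hV hE
  have H := P269AM.rowM ι X I hI hr
  have h1 : ∀ g l, N g 0 l = ∑ j ∈ range (X.r + 1),
      II X I g j (l.map Prod.fst) * X.J j (l.map Prod.snd) := fun g l => by
    simp only [h0, Coh.N0, II, List.length_map]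
    split_ifs <;> simp
  have hN : ∀ (g : ℕ) w, Nr N g 0 w = ∑ j ∈ range (X.r + 1),
      II X I g j (w.map Prod.fst) * X.J j (rl w) := fun g w => by
    rw [Nr_nat, h1]
    exact sum_congr rfl fun j _ => by rw [H.perm g j ((List.reverse_perm w).map _), rl]
  have h2 : ∀ g d l, N g d l ≠ 0 → Even ((frob X).deg l) := fun g d l h2 => by
    rcases Nat.eq_zero_or_pos d with rfl | hd
    · rw [h1] at h2
      obtain ⟨j, -, h3⟩ := exists_ne_zero_of_sum_ne_zero h2
      have h4 := J_even h (right_ne_zero_of_mul h3)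
      rw [dg, List.map_map] at h4
      exact ⟨X.r - j, by change (l.map (X.deg ∘ Prod.snd)).sum = _; omega⟩
    · exact hE g d l hd h2
  obtain ⟨Z, hZ, hZ'⟩ := P269AX.rowE ι (frob X) N (fun g l h3 => by
    rw [h1] at h3
    obtain ⟨j, -, h4⟩ := exists_ne_zero_of_sum_ne_zero h3
    simpa using H.stab _ _ _ (left_ne_zero_of_mul h4)) h2
  have hF : (frob X).Par 0 (pot N) := fun u hu => by
    by_contra h3
    refine hu (P269AX.cf_ext fun d j => ?_)
    rw [cfh_eq, cfh_eq, map_zero, cfh_pot, Nr]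
    split_ifs
    · rfl
    · by_contra h4
      have := h2 _ _ _ h4
      rw [(frob X).deg_perm (List.reverse_perm u)] at this
      exact h3 (by rwa [zero_add])
  have hV' : ∀ (g d : ℕ) w, ¬ (g = 0 ∧ d = 0) → Nr N g d w ≠ 0 →
      (ex X w : ℤ) ≤ 2 * vd X.r c g d := fun g d w h3 h4 => by
    rcases Nat.eq_zero_or_pos d with rfl | hd
    · rw [hN] at h4
      obtain ⟨j, -, h5⟩ := exists_ne_zero_of_sum_ne_zero h4
      have h6 := J_even h (right_ne_zero_of_mul h5)
      have h7 := ex_le (X := X) w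
      obtain rfl | h8 : g = 1 ∨ 2 ≤ g := by omega
      · have := H.deg1 _ _ (left_ne_zero_of_mul h5)
        simp only [vd]
        omega
      · have h9 := H.deg2 _ _ _ h8 (left_ne_zero_of_mul h5)
        have h10 : vd X.r c g 0 = 3 * g + X.r - (X.r * g : ℕ) - 3 := by
          simp only [vd]; push_cast; ring
        omega
    · rw [Nr_nat] at h4
      have := hV g d hd _ h4
      rwa [((List.reverse_perm w).map _).sum_eq] at this
  have h3 : ∀ n d w, ∀ j < -1, cf d j ((frob X).zeta (pot N) n w) = 0 := fun n d w j hj => by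
    rw [← add_sub_cancel_right j 1, Frob.cf_zeta, Frob.zC_neg _ _ _ (by omega)]
  have h4 : ∀ n (g d : ℕ) w, d = 0 ∨ vd X.r c g d < 0 →
      cf d (g - 1) ((frob X).zeta (pot N) n w) = 0 := fun n g d w h4 => by
    rw [Frob.cf_zeta]
    rcases Nat.eq_zero_or_pos d with rfl | hd
    · exact zC_zero h H hN hr n g w
    · exact zC_pos h hV' n hd (h4.resolve_left hd.ne') w
  refine ⟨Z, hZ, fun n => ⟨_, Frob.L_eq _ hF hZ' n, h3 n, h4 n⟩, fun hc n => ?_⟩
  rw [Frob.L_eq _ hF hZ' n, show (frob X).zeta (pot N) n = 0 from funext fun w =>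
    P269AX.cf_ext fun d j => ?_, Frob.zero_mul']
  rw [Pi.zero_apply, P269AX.cf_zero]
  rcases lt_or_ge j (-1) with h5 | h5
  · exact h3 n d w j h5
  obtain ⟨g, hg⟩ := Int.eq_ofNat_of_zero_le (by omega : 0 ≤ j + 1)
  rw [show j = g - 1 by omega]
  refine h4 n g d w ((Nat.eq_zero_or_pos d).imp_right fun hd => ?_)
  change c < 3 - (X.r : ℤ) at hc
  have h6 : (3 : ℤ) ≤ X.r := by exact_mod_cast hr
  have h7 : (1 : ℤ) ≤ d := by exact_mod_cast hd
  simp only [vd]
  nlinarith [Int.natCast_nonneg g]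

end Vale.Agent.P269AV
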