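import Vale.Agent.P269AV.Defs
import Vale.Agent.P269AV.Split

/-!
# P269AV / Sup : signed sums over splittings, and the product of formal functions
-/

noncomputable section

namespace Vale.Agent.P269AV

variable {ι : Type} (X : Frob ι)

namespace Frob

@[simp] theorem deg_nil : X.deg [] = 0 := rfl
theorem deg_cons (x : ℕ × ι) (w : Wd ι) : X.deg (x :: w) = X.deg [x] + X.deg w := by simp [deg]
theorem deg_append (u v : Wd ι) : X.deg (u ++ v) = X.deg u + X.deg v := by simp [deg]
theorem deg_perm {u v : Wd ι} (h : u.Perm v) : X.deg u = X.deg v := (h.map _).sum_eq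

section S2

variable {R R' : Type} [CommRing R] [CommRing R']

/-- the signed sum of `K u v` over all splittings of a word -/
def s2 : (Wd ι → Wd ι → R) → Wd ι → R
  | K, [] => K [] []
  | K, x :: w => s2 (fun u v => K (x :: u) v) w +
      s2 (fun u v => (-1) ^ (X.deg [x] * X.deg u) * K u (x :: v)) w

variable {K K' : Wd ι → Wd ι → R} {w : Wd ι}

theorem s2_congr (h : ∀ u v, (u ++ v).Perm w → K u v = K' u v) : X.s2 K w = X.s2 K' w := by
  induction w generalizing K K' with
  | nil => exact h [] [] (List.Perm.refl _)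
  | cons x w ih =>
    rw [s2, s2, ih (K' := fun u v => K' (x :: u) v) fun u v h' => h _ _ (h'.cons x),
      ih (K := fun u v => (-1) ^ (X.deg [x] * X.deg u) * K u (x :: v))
        (K' := fun u v => (-1) ^ (X.deg [x] * X.deg u) * K' u (x :: v)) fun u v h' => by
          rw [h _ _ (List.perm_middle.trans (h'.cons x))]]

theorem s2_map (φ : R →+ R') (K : Wd ι → Wd ι → R) (w : Wd ι) :
    φ (X.s2 K w) = X.s2 (fun u v => φ (K u v)) w := by
  induction w generalizing K with
  | nil => rfl
  | cons x w ih =>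
    rw [s2, s2, map_add, ih, ih]
    congr 1
    refine X.s2_congr fun u v _ => ?_
    rcases neg_one_pow_eq_or ℤ (X.deg [x] * X.deg u) with h | h
    · have h1 := congrArg (Int.cast : ℤ → R) h
      have h2 := congrArg (Int.cast : ℤ → R') h
      push_cast at h1 h2
      rw [h1, h2, one_mul, one_mul]
    · have h1 := congrArg (Int.cast : ℤ → R) h
      have h2 := congrArg (Int.cast : ℤ → R') h
      push_cast at h1 h2
      rw [h1, h2, neg_one_mul, neg_one_mul, map_neg]

theorem s2_add (K K' : Wd ι → Wd ι → R) (w : Wd ι) :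
    X.s2 (fun u v => K u v + K' u v) w = X.s2 K w + X.s2 K' w := by
  induction w generalizing K K' with
  | nil => rfl
  | cons x w ih =>
    simp only [s2, mul_add]
    rw [ih, ih]; ring

theorem s2_smul (c : R) (K : Wd ι → Wd ι → R) (w : Wd ι) :
    X.s2 (fun u v => c * K u v) w = c * X.s2 K w :=
  (X.s2_map (AddMonoidHom.mulLeft c) K w).symm

theorem s2_zero (w : Wd ι) : X.s2 (fun _ _ => (0 : R)) w = 0 := by
  simpa using X.s2_smul (0 : R) (fun _ _ => 0) w

theorem s2_eq_zero (h : ∀ u v, (u ++ v).Perm w → K u v = 0) : X.s2 K w = 0 :=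
  (X.s2_congr h).trans (X.s2_zero w)

theorem s2_sum {σ : Type} (s : Finset σ) (K : σ → Wd ι → Wd ι → R) (w : Wd ι) :
    X.s2 (fun u v => ∑ i ∈ s, K i u v) w = ∑ i ∈ s, X.s2 (K i) w := by
  classical
  induction s using Finset.induction_on with
  | empty => simpa using X.s2_zero w
  | insert a s ha ih =>
    simp only [Finset.sum_insert ha]
    rw [s2_add, ih]

theorem s2_nil_left (K : Wd ι → Wd ι → R) (h : ∀ x u v, K (x :: u) v = 0) (w : Wd ι) :
    X.s2 K w = K [] w := by
  induction w generalizing K with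
  | nil => rfl
  | cons x w ih =>
    rw [s2, X.s2_eq_zero fun u v _ => h x u v, zero_add,
      ih (fun u v => (-1) ^ (X.deg [x] * X.deg u) * K u (x :: v)) fun y u v => by
        rw [h y u _, mul_zero]]
    simp

end S2

theorem mul_eq (F G : Ser ι) (w : Wd ι) : X.mul F G w = X.s2 (fun u v => F u * G v) w := by
  induction w generalizing F G with
  | nil => rfl
  | cons x w ih =>
    rw [mul, s2, ih, ih]
    simp only [mul_assoc]

/-- the parity operator -/
def sg (n : ℕ) (F : Ser ι) : Ser ι := fun u => (-1) ^ (n * X.deg u) * F u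

theorem mul_cons (F G : Ser ι) (x : ℕ × ι) : (fun u => X.mul F G (x :: u)) =
    X.mul (fun u => F (x :: u)) G + X.mul (X.sg (X.deg [x]) F) (fun u => G (x :: u)) := rfl

theorem add_mul' (F F' G : Ser ι) : X.mul (F + F') G = X.mul F G + X.mul F' G := by
  ext1 w
  simp only [mul_eq, Pi.add_apply, add_mul, s2_add]

theorem mul_add' (F G G' : Ser ι) : X.mul F (G + G') = X.mul F G + X.mul F G' := by
  ext1 w
  simp only [mul_eq, Pi.add_apply, mul_add, s2_add]

theorem smul_mul' (c : Λ) (F G : Ser ι) : X.mul (c • F) G = c • X.mul F G := by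
  ext1 w
  simp only [mul_eq, Pi.smul_apply, smul_eq_mul, mul_assoc, s2_smul]

theorem mul_smul' (c : Λ) (F G : Ser ι) : X.mul F (c • G) = c • X.mul F G := by
  ext1 w
  simp only [mul_eq, Pi.smul_apply, smul_eq_mul, mul_left_comm _ c, s2_smul]

theorem zero_mul' (G : Ser ι) : X.mul 0 G = 0 := by
  ext1 w
  simp only [mul_eq, Pi.zero_apply, zero_mul, s2_zero]

theorem mul_zero' (F : Ser ι) : X.mul F 0 = 0 := by
  ext1 w
  simp only [mul_eq, Pi.zero_apply, mul_zero, s2_zero]

theorem sum_mul' {σ : Type} (s : Finset σ) (F : σ → Ser ι) (G : Ser ι) :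
    X.mul (∑ i ∈ s, F i) G = ∑ i ∈ s, X.mul (F i) G := by
  ext1 w
  simp only [mul_eq, Finset.sum_apply, Finset.sum_mul, s2_sum]

theorem sg_mul (n : ℕ) (F G : Ser ι) : X.sg n (X.mul F G) = X.mul (X.sg n F) (X.sg n G) := by
  ext1 w
  rw [sg, mul_eq, mul_eq, ← s2_smul]
  refine X.s2_congr fun u v h => ?_
  rw [sg, sg, ← X.deg_perm h, deg_append]
  ring

theorem sg_cons (n : ℕ) (F : Ser ι) (x : ℕ × ι) : (fun u => X.sg n F (x :: u)) =
    ((-1 : Λ) ^ (n * X.deg [x])) • X.sg n (fun u => F (x :: u)) := by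
  ext1 u
  rw [sg, Pi.smul_apply, sg, X.deg_cons, smul_eq_mul]
  ring

theorem sg_sg (n m : ℕ) (F : Ser ι) : X.sg n (X.sg m F) = X.sg (n + m) F := by
  ext1 u
  simp only [sg]
  ring

theorem mul_assoc' (F G H : Ser ι) : X.mul (X.mul F G) H = X.mul F (X.mul G H) := by
  ext1 w
  induction w generalizing F G H with
  | nil => exact mul_assoc _ _ _
  | cons x w ih =>
    have h1 := congrFun (X.mul_cons (X.mul F G) H x) w
    have h2 := congrFun (X.mul_cons F (X.mul G H) x) w
    rw [h1, h2, mul_cons, mul_cons, add_mul', mul_add', sg_mul]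
    simp only [Pi.add_apply, ih, add_assoc]

/-- `F` has the parity of `n` -/
def Par (n : ℕ) (F : Ser ι) : Prop := ∀ u, F u ≠ 0 → Even (n + X.deg u)

theorem Par.cons {n : ℕ} {F : Ser ι} (h : X.Par n F) (x : ℕ × ι) :
    X.Par (n + X.deg [x]) fun u => F (x :: u) := fun u hu => by
  have := h _ hu
  rwa [X.deg_cons, ← add_assoc] at this

theorem Par.sg {n : ℕ} {F : Ser ι} (h : X.Par n F) (m : ℕ) :
    X.sg m F = ((-1 : Λ) ^ (n * m)) • F := by
  ext1 u
  rw [Frob.sg, Pi.smul_apply, smul_eq_mul]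
  by_cases h0 : F u = 0
  · rw [h0, mul_zero, mul_zero]
  · obtain ⟨k, hk⟩ := h u h0
    have h1 : (-1 : Λ) ^ X.deg u = (-1) ^ n := by
      have h2 : (-1 : Λ) ^ (n + X.deg u) = 1 := by
        rw [hk, ← two_mul, pow_mul, show (-1 : Λ) ^ 2 = 1 by ring, one_pow]
      have h3 : (-1 : Λ) ^ n * (-1) ^ n = 1 := by
        rw [← mul_pow, show (-1 : Λ) * -1 = 1 by ring, one_pow]
      rw [pow_add] at h2
      linear_combination (-1 : Λ) ^ n * h2 - (-1) ^ X.deg u * h3
    rw [mul_comm m, pow_mul, pow_mul, h1]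

theorem mul_comm' {n : ℕ} {F : Ser ι} (h : X.Par n F) (G : Ser ι) :
    X.mul F G = X.mul (X.sg n G) F := by
  ext1 w
  induction w generalizing F G n with
  | nil => simp [mul, sg, mul_comm]
  | cons x w ih =>
    have h1 := congrFun (X.mul_cons F G x) w
    have h2 := congrFun (X.mul_cons (X.sg n G) F x) w
    rw [h1, h2, h.sg, sg_cons, sg_sg, smul_mul', smul_mul']
    simp only [Pi.add_apply, Pi.smul_apply]
    rw [ih (h.cons X x), ih h, add_comm, add_comm n]

theorem cst_mul (c : Λ) (G : Ser ι) : X.mul (cst c) G = c • G := by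
  ext1 w
  rw [mul_eq, X.s2_nil_left _ fun x u v => by simp [cst]]
  simp [cst]

end Frob

end Vale.Agent.P269AV
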