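import Vale.Agent.P269AV.Sup
import Vale.Agent.P269AV.Ext

/-!
# P269AV / Zeta : the function `Z⁻¹ L Z` and its coefficients
-/

noncomputable section

namespace Vale.Agent.P269AV

open Finset

/-- the coefficient as an additive map -/
def cfh (d : ℕ) (j : ℤ) : Λ →+ ℂ where
  toFun := cf d j
  map_zero' := by simp [cf]
  map_add' x y := by simp [cf]

theorem cfh_eq (d : ℕ) (j : ℤ) (x : Λ) : cf d j x = cfh d j x := rfl

theorem cfh_hbar_mul (d : ℕ) (j k : ℤ) (c : ℂ) (x : Λ) :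
    cfh d j (hbar k c * x) = c * cfh d (j - k) x := by
  simp only [← cfh_eq, cf, hbar, PowerSeries.coeff_C_mul, HahnSeries.coeff_single_mul]

theorem cfh_one (d : ℕ) (j : ℤ) : cfh d j 1 = if j = 0 ∧ d = 0 then 1 else 0 := by
  rw [← cfh_eq, cf, PowerSeries.coeff_one]
  by_cases h : d = 0 <;> simp [h, HahnSeries.coeff_one]

theorem hbar_mul (j k : ℤ) (c c' : ℂ) : hbar j c * hbar k c' = hbar (j + k) (c * c') := by
  rw [hbar, hbar, hbar, ← map_mul, HahnSeries.single_mul_single]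

/-- the embedding of the power series in `ħ` and `Q` -/
def emb : PowerSeries (PowerSeries ℂ) →+* Λ := PowerSeries.map (HahnSeries.ofPowerSeries ℤ ℂ)

theorem cfh_emb (d : ℕ) (j : ℤ) (x : PowerSeries (PowerSeries ℂ)) : cfh d j (emb x) =
    if j < 0 then 0 else PowerSeries.coeff j.natAbs (PowerSeries.coeff d x) := by
  rw [← cfh_eq, cf, emb, PowerSeries.coeff_map, PowerSeries.coeff_coe]

variable {ι : Type} (N : ℕ → ℕ → Wd ι → ℂ)

theorem pot_eq (w : Wd ι) : pot N w =
    hbar (-1) 1 * emb (PowerSeries.mk fun d => PowerSeries.mk fun g => N g d w.reverse) := by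
  ext1 d
  rw [pot, hbar, PowerSeries.coeff_C_mul, emb, PowerSeries.coeff_map, PowerSeries.coeff_mk,
    PowerSeries.coeff_mk]

/-- the invariants in the reversed order, zero for negative genus -/
def Nr (g : ℤ) (d : ℕ) (w : Wd ι) : ℂ := if g < 0 then 0 else N g.natAbs d w.reverse

theorem Nr_nat (g d : ℕ) (w : Wd ι) : Nr N g d w = N g d w.reverse := by
  rw [Nr, if_neg (by omega), Int.natAbs_natCast]

theorem cfh_pot (d : ℕ) (j : ℤ) (w : Wd ι) : cfh d j (pot N w) = Nr N (j + 1) d w := by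
  rw [pot_eq, cfh_hbar_mul, cfh_emb, Nr, one_mul, sub_neg_eq_add, PowerSeries.coeff_mk,
    PowerSeries.coeff_mk]

theorem cfh_pot_mul (d : ℕ) (j : ℤ) (u v : Wd ι) : cfh d j (pot N u * pot N v) =
    if j + 2 < 0 then 0 else ∑ e ∈ antidiagonal d, ∑ h ∈ antidiagonal (j + 2).natAbs,
      Nr N h.1 e.1 u * Nr N h.2 e.2 v := by
  rw [pot_eq, pot_eq, mul_mul_mul_comm, hbar_mul, ← map_mul, cfh_hbar_mul, cfh_emb,
    show j - (-1 + -1) = j + 2 by ring]
  simp [PowerSeries.coeff_mul, Nr_nat]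

/-- the derivative of a function with complex values -/
def dC (k : ℤ) (b : ι) (f : Wd ι → ℂ) (v : Wd ι) : ℂ := if 0 ≤ k then f ((k.toNat, b) :: v) else 0

variable [Fintype ι] [DecidableEq ι] (X : Frob ι)

/-- the coordinate, with complex values -/
def crdC (m : ℕ) (a : ι) (u : Wd ι) : ℂ := if u = [(m, a)] then 1 else 0

namespace Frob

/-- the shifted coordinate, with complex values -/
def ttC (m : ℕ) (a : ι) (u : Wd ι) : ℂ :=
  crdC m a u - if (m = 1 ∧ a = X.one) ∧ u = [] then 1 else 0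

/-- the coefficient of the first order part -/
def cA (n i m : ℕ) (a b : ι) : ℂ := br n i (X.μ a + m + 1 / 2) * (X.R ^ i) a b

/-- the coefficient of the second order part -/
def cB (n i m : ℕ) (a b : ι) : ℂ :=
  ∑ c, (-1) ^ (m + 1) / 2 * br n i (X.μ c - m - 1 / 2) * X.η⁻¹ a c * (X.R ^ i) c b

/-- the summand of `Z⁻¹ L Z` -/
def zm (F : Ser ι) (n m : ℕ) : Ser ι := ∑ i ∈ range (n + 1), ∑ a, ∑ b,
  (hbar 0 (X.cA n i m a b) • X.mul (X.tt m a) (der (m + n - 1 - i) b F) +
    hbar 1 (X.cB n i m a b) • (der m a (der (n - 2 - m - i) b F) +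
      X.mul (der m a F) (der (n - 2 - m - i) b F)))

/-- the function `Z⁻¹ L Z` -/
def zeta (F : Ser ι) (n : ℕ) : Ser ι := (fun u => ∑ m ∈ range (sm u + n + 2), X.zm F n m u) +
  (∑ a, ∑ b, hbar (-1) ((X.R ^ n * X.η) a b / 2) • X.mul (crd 0 b) (crd 0 a)) +
    cst (hbar 0 (if n = 1 then X.ρ else 0))

omit [Fintype ι] [DecidableEq ι] in
theorem der_nat (m : ℕ) (a : ι) (F : Ser ι) : der m a F = fun u => F ((m, a) :: u) := by
  ext1 u; simp [der]

omit [Fintype ι] [DecidableEq ι] in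
theorem der_neg {k : ℤ} (h : k < 0) (a : ι) (F : Ser ι) : der k a F = 0 := by
  ext1 u; simp [der, h]

variable {F Z : Ser ι}

theorem zm_eq_zero (F : Ser ι) {n m : ℕ} {u : Wd ι} (h : sm u + n + 2 ≤ m) : X.zm F n m u = 0 := by
  simp only [zm, Finset.sum_apply]
  refine sum_eq_zero fun i _ => sum_eq_zero fun a _ => sum_eq_zero fun b _ => ?_
  rw [der_neg (k := n - 2 - m - i) (by omega), mul_zero', der_nat, Pi.add_apply, Pi.smul_apply,
    mul_eq, X.s2_eq_zero fun u' v e => ?_]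
  · simp
  · have := sm_perm e
    rw [tt, if_neg (by omega), sub_zero, crd, if_neg, zero_mul]
    rintro rfl
    simp at this
    omega

theorem L_eq (hF : X.Par 0 F)
    (hZ : ∀ x, (fun u => Z (x :: u)) = X.mul (fun u => F (x :: u)) Z) (n : ℕ) :
    X.L n Z = X.mul (X.zeta F n) Z := by
  have h1 : ∀ k b, der k b Z = X.mul (der k b F) Z := fun k b => by
    rcases lt_or_ge k 0 with h | h
    · rw [der_neg h, der_neg h, zero_mul']
    · obtain ⟨k, rfl⟩ := Int.eq_ofNat_of_zero_le h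
      rw [der_nat, der_nat, hZ]
  have h2 : ∀ (m : ℕ) a G, der m a (X.mul G Z) = X.mul (der m a G + X.mul (der m a F) G) Z :=
    fun m a G => by
      have := hF.cons X (m, a)
      rw [zero_add] at this
      rw [der_nat, der_nat, der_nat, mul_cons, hZ, add_mul', ← mul_assoc', X.mul_comm' this]
  have h3 : ∀ m, X.Lm n m Z = X.mul (X.zm F n m) Z := fun m => by
    simp only [Lm, zm, sum_mul', cA, cB]
    refine sum_congr rfl fun i _ => sum_congr rfl fun a _ => sum_congr rfl fun b _ => ?_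
    rw [add_mul', smul_mul', smul_mul', mul_assoc', ← h1, ← h2, ← h1]
  rw [L, zeta, add_mul', add_mul', cst_mul]
  simp only [sum_mul', smul_mul', mul_assoc']
  congr 2
  ext1 w
  rw [finsum_eq_sum_of_support_subset (s := range (sm w + n + 2))]
  · simp only [h3, mul_eq, ← s2_sum, ← sum_mul]
    refine X.s2_congr fun u v e => ?_
    have := sm_perm e
    rw [sm_append] at this
    rw [sum_subset (s₁ := range (sm u + n + 2)) (s₂ := range (sm w + n + 2))
      (range_subset_range.2 (by omega)) fun m _ h => X.zm_eq_zero F (by simpa using h)]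
  · intro m hm
    by_contra h
    refine hm ?_
    beta_reduce
    rw [h3, mul_eq]
    refine X.s2_eq_zero fun u v e => ?_
    have := sm_perm e
    rw [sm_append] at this
    rw [X.zm_eq_zero F (by simp at h; omega), zero_mul]

/-- the coefficient of `ħ ^ (g - 1) Q ^ d` in the summand -/
def zmC (n m : ℕ) (g : ℤ) (d : ℕ) (w : Wd ι) : ℂ := ∑ i ∈ range (n + 1), ∑ a, ∑ b,
  (X.cA n i m a b * X.s2 (fun u v => X.ttC m a u * dC (m + n - 1 - i) b (Nr N g d) v) w +
    X.cB n i m a b * (dC (n - 2 - m - i) b (Nr N (g - 1) d) ((m, a) :: w) +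
      X.s2 (fun u v => if g < 0 then 0 else ∑ e ∈ antidiagonal d, ∑ h ∈ antidiagonal g.natAbs,
        Nr N h.1 e.1 ((m, a) :: u) * dC (n - 2 - m - i) b (Nr N h.2 e.2) v) w))

/-- the coefficient of `ħ ^ (g - 1) Q ^ d` -/
def zC (n : ℕ) (g : ℤ) (d : ℕ) (w : Wd ι) : ℂ := ∑ m ∈ range (sm w + n + 2), X.zmC N n m g d w +
  (if g = 0 ∧ d = 0 then ∑ a, ∑ b, (X.R ^ n * X.η) a b / 2 *
    X.s2 (fun u v => crdC 0 b u * crdC 0 a v) w else 0) +
  if (g = 1 ∧ d = 0) ∧ n = 1 ∧ w = [] then X.ρ else 0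

omit [Fintype ι] in
theorem crd_eq (m : ℕ) (a : ι) (u : Wd ι) : crd m a u = hbar 0 (crdC m a u) := by
  rw [crd, crdC]
  split_ifs <;> simp [hbar]

omit [Fintype ι] in
theorem tt_eq (m : ℕ) (a : ι) (u : Wd ι) : X.tt m a u = hbar 0 (X.ttC m a u) := by
  rw [tt, ttC, Pi.sub_apply, crd_eq]
  by_cases h1 : m = 1 ∧ a = X.one <;> by_cases h2 : u = [] <;> simp [h1, h2, cst, hbar]

theorem cf_zeta (n : ℕ) (g : ℤ) (d : ℕ) (w : Wd ι) :
    cf d (g - 1) (X.zeta (pot N) n w) = X.zC N n g d w := by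
  have h1 : ∀ j k b v, cfh d j (der k b (pot N) v) = dC k b (Nr N (j + 1) d) v := fun j k b v => by
    rw [der, dC]
    split_ifs
    · rw [cfh_pot]
    · rw [map_zero]
  have h2 : ∀ (m : ℕ) a k b u v, cfh d (g - 1 - 1) (der m a (pot N) u * der k b (pot N) v) =
      if g < 0 then 0 else ∑ e ∈ antidiagonal d, ∑ h ∈ antidiagonal g.natAbs,
        Nr N h.1 e.1 ((m, a) :: u) * dC k b (Nr N h.2 e.2) v := fun m a k b u v => by
    rw [der_nat, der]
    simp only [dC]
    split_ifs with h3 h4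
    · rw [cfh_pot_mul, if_pos (by omega)]
    · rw [cfh_pot_mul, if_neg (by omega), show g - 1 - 1 + 2 = g by ring]
    · simp
    · simp
  rw [cfh_eq, zeta, zC, Pi.add_apply, Pi.add_apply, map_add, map_add, map_sum]
  congr 2
  · refine sum_congr rfl fun m _ => ?_
    simp only [zm, zmC, Finset.sum_apply, map_sum, Pi.add_apply, Pi.smul_apply, smul_eq_mul,
      map_add, cfh_hbar_mul, mul_eq, s2_map, tt_eq, h1, h2, sub_zero, sub_add_cancel]
    simp only [der_nat, h1, sub_add_cancel]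
  · simp only [Finset.sum_apply, map_sum, Pi.smul_apply, smul_eq_mul, cfh_hbar_mul, mul_eq,
      s2_map, crd_eq, hbar_mul]
    have h3 : ∀ c, cfh d (g - 1 - -1) (hbar (0 + 0) c) = if g = 0 ∧ d = 0 then c else 0 :=
      fun c => by
        rw [← mul_one (hbar _ c), cfh_hbar_mul, cfh_one]
        simp
    simp only [h3]
    split_ifs
    · rfl
    · simp [s2_zero]
  · rw [cst]
    by_cases h : w = []
    · rw [if_pos h, ← mul_one (hbar _ _), cfh_hbar_mul, cfh_one]
      simp only [sub_zero, sub_eq_zero, h, and_true]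
      by_cases h3 : g = 1 ∧ d = 0 <;> by_cases h4 : n = 1 <;> simp [h3, h4]
    · simp [h]

theorem zC_neg (n : ℕ) {g : ℤ} (h : g < 0) (d : ℕ) (w : Wd ι) : X.zC N n g d w = 0 := by
  have h1 : ∀ g < 0, ∀ k b v, dC k b (Nr N g d) v = 0 := fun g h k b v => by simp [dC, Nr, h]
  rw [zC, if_neg (by omega), if_neg (by omega)]
  simp [zmC, h1 g h, h1 (g - 1) (by omega), h, s2_zero]

end Frob

end Vale.Agent.P269AV
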